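import Vale.Agent.P247.H520.CompA

/-!
# P247, package E5, COMP: composition with a smooth map with bounded derivatives
-/

open scoped ContDiff Topology ENNReal NNReal
open Set MeasureTheory Filter Metric
open Vale.Agent.P247.H74 (R4 e)
open Vale.Agent.P363.R.Sob
open Vale.Agent.P247.H306
open Vale.Agent.P247.H447.E5

set_option linter.unusedSectionVars false

noncomputable section

namespace Vale.Agent.P247.H520.Comp

/-- `L⁴ · L⁴ ⊂ L²` -/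
theorem ll_bilin {V W X : Type*} [NormedAddCommGroup V] [NormedSpace ℝ V]
    [NormedAddCommGroup W] [NormedSpace ℝ W] [NormedAddCommGroup X] [NormedSpace ℝ X]
    (b : V →L[ℝ] W →L[ℝ] X) {f : R4 → V} {g : R4 → W} (hf : LL 4 f) (hg : LL 4 g) :
    LL 2 fun x => b (f x) (g x) := by
  intro K hK
  haveI : ENNReal.HolderTriple (4 : ℝ≥0∞) 4 2 := ⟨by
    have h4 : (4 : ℝ≥0∞) = 2 * 2 := by norm_num
    rw [h4, ENNReal.mul_inv (Or.inl (by norm_num)) (Or.inl (by norm_num)), ← mul_add,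
      ENNReal.inv_two_add_inv_two, mul_one]⟩
  exact b.memLp_of_bilin 2 (hf K hK) (hg K hK)

/-- products of `H^{k+1}` functions are in `H^k` -/
theorem sob_bilin (k : ℕ) : ∀ {V W X : Type} [NormedAddCommGroup V] [NormedSpace ℝ V]
    [FiniteDimensional ℝ V] [NormedAddCommGroup W] [NormedSpace ℝ W] [FiniteDimensional ℝ W]
    [NormedAddCommGroup X] [NormedSpace ℝ X] [FiniteDimensional ℝ X]
    (b : V →L[ℝ] W →L[ℝ] X) {f : R4 → V} {g : R4 → W}, Sob (k + 1) f → Sob (k + 1) g →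
    Sob k fun x => b (f x) (g x) := by
  induction k with
  | zero =>
    intro V W X _ _ _ _ _ _ _ _ _ b f g hf hg
    exact ll_bilin b (H399.Emb.sob_ll4 hf) (H399.Emb.sob_ll4 hg)
  | succ k ih =>
    intro V W X _ _ _ _ _ _ _ _ _ b f g hf hg
    refine ⟨ll_bilin b (H399.Emb.sob_ll4 (hf.mono (by omega))) (H399.Emb.sob_ll4
      (hg.mono (by omega))), fun i => ?_⟩
    obtain ⟨f', Wf, sf⟩ := hf.2 i
    obtain ⟨g', Wg, sg⟩ := hg.2 i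
    refine ⟨fun x => b (f' x) (g x) + b (f x) (g' x),
      isWD_bilin b hf.ll sf.ll hg.ll sg.ll Wf Wg, ?_⟩
    exact sob_add (ih b sf (hg.mono (by omega))) (ih b (hf.mono (by omega)) sg)

/-- the bilinear map `(v, z) ↦ (s ↦ c (s v) z)` -/
def dd {V T Z Y : Type} [NormedAddCommGroup V] [NormedSpace ℝ V]
    [NormedAddCommGroup T] [NormedSpace ℝ T] [NormedAddCommGroup Z] [NormedSpace ℝ Z]
    [NormedAddCommGroup Y] [NormedSpace ℝ Y] (c : T →L[ℝ] Z →L[ℝ] Y) :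
    V →L[ℝ] Z →L[ℝ] ((V →L[ℝ] T) →L[ℝ] Y) :=
  (ContinuousLinearMap.flipₗᵢ ℝ (V →L[ℝ] T) Z Y).toContinuousLinearEquiv.toContinuousLinearMap.comp
    ((ContinuousLinearMap.compL ℝ (V →L[ℝ] T) T (Z →L[ℝ] Y) c).comp
      (ContinuousLinearMap.apply ℝ T))

theorem dd_apply {V T Z Y : Type} [NormedAddCommGroup V] [NormedSpace ℝ V]
    [NormedAddCommGroup T] [NormedSpace ℝ T] [NormedAddCommGroup Z] [NormedSpace ℝ Z]
    [NormedAddCommGroup Y] [NormedSpace ℝ Y] (c : T →L[ℝ] Z →L[ℝ] Y)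
    (v : V) (z : Z) (s : V →L[ℝ] T) : dd c v z s = c (s v) z := rfl

/-- evaluation -/
def ap {T Y : Type} [NormedAddCommGroup T] [NormedSpace ℝ T]
    [NormedAddCommGroup Y] [NormedSpace ℝ Y] : T →L[ℝ] (T →L[ℝ] Y) →L[ℝ] Y :=
  ContinuousLinearMap.apply ℝ Y

theorem ap_apply {T Y : Type} [NormedAddCommGroup T] [NormedSpace ℝ T]
    [NormedAddCommGroup Y] [NormedSpace ℝ Y] (t : T) (s : T →L[ℝ] Y) : ap t s = s t := rfl

/-- `c (Ψ f) g` in `L²` -/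
theorem ll_fun_mul {V T Z Y : Type} [NormedAddCommGroup V] [NormedSpace ℝ V]
    [NormedAddCommGroup T] [NormedSpace ℝ T] [NormedAddCommGroup Z] [NormedSpace ℝ Z]
    [NormedAddCommGroup Y] [NormedSpace ℝ Y] (c : T →L[ℝ] Z →L[ℝ] Y) {Ψ : V → T}
    (hΨ : Continuous Ψ) {C : ℝ} (hC : ∀ y, ‖Ψ y‖ ≤ C) {f : R4 → V} {g : R4 → Z}
    (hf : LL 2 f) (hg : LL 2 g) : LL 2 fun x => c (Ψ (f x)) (g x) := by
  intro K hK
  have m1 : AEStronglyMeasurable (fun x => Ψ (f x)) (volume.restrict K) :=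
    hΨ.comp_aestronglyMeasurable (hf K hK).1
  have m2 : AEStronglyMeasurable (fun x => c (Ψ (f x)) (g x)) (volume.restrict K) :=
    c.aestronglyMeasurable_comp₂ m1 (hg K hK).1
  refine ((hg K hK).norm.const_mul (‖c‖ * C)).mono m2 (Eventually.of_forall fun x => ?_)
  refine le_trans ?_ (Real.le_norm_self _)
  calc ‖c (Ψ (f x)) (g x)‖ ≤ ‖c‖ * ‖Ψ (f x)‖ * ‖g x‖ := c.le_opNorm₂ _ _
    _ ≤ ‖c‖ * C * ‖g x‖ := by
        refine mul_le_mul_of_nonneg_right ?_ (norm_nonneg _)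
        exact mul_le_mul_of_nonneg_left (hC _) c.opNorm_nonneg

/-- `c (Ψ f) g` for `f ∈ H^{k+1}`, `g ∈ H^k` and `Ψ` with bounded derivatives -/
theorem sob_fun_mul (k : ℕ) : ∀ {V T Z Y : Type} [NormedAddCommGroup V] [NormedSpace ℝ V]
    [FiniteDimensional ℝ V] [NormedAddCommGroup T] [NormedSpace ℝ T] [FiniteDimensional ℝ T]
    [NormedAddCommGroup Z] [NormedSpace ℝ Z] [FiniteDimensional ℝ Z]
    [NormedAddCommGroup Y] [NormedSpace ℝ Y] [FiniteDimensional ℝ Y]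
    (c : T →L[ℝ] Z →L[ℝ] Y) (Ψ : V → T), ContDiff ℝ ∞ Ψ →
    (∀ n : ℕ, ∃ C : ℝ, ∀ y, ‖iteratedFDeriv ℝ n Ψ y‖ ≤ C) → ∀ {f : R4 → V} {g : R4 → Z},
    Sob (k + 1) f → Sob k g → Sob k fun x => c (Ψ (f x)) (g x) := by
  induction k with
  | zero =>
    intro V T Z Y _ _ _ _ _ _ _ _ _ _ _ _ c Ψ hΨ hb f g hf hg
    obtain ⟨C₀, hC₀⟩ := hb 0
    exact ll_fun_mul c hΨ.continuous (fun y => by simpa using hC₀ y) hf.ll hg.ll
  | succ k ih =>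
    intro V T Z Y _ _ _ _ _ _ _ _ _ _ _ _ c Ψ hΨ hb f g hf hg
    obtain ⟨C₀, hC₀⟩ := hb 0
    obtain ⟨C₁, hC₁⟩ := hb 1
    have h0 : ∀ y, ‖Ψ y‖ ≤ C₀ := fun y => by simpa using hC₀ y
    have h1 : ∀ y, ‖fderiv ℝ Ψ y‖ ≤ C₁ := fun y => by
      have := hC₁ y
      rwa [norm_iteratedFDeriv_one] at this
    refine ⟨ll_fun_mul c hΨ.continuous h0 hf.ll hg.ll, fun i => ?_⟩
    obtain ⟨f', Wf, sf⟩ := hf.2 i
    obtain ⟨g', Wg, sg⟩ := hg.2 i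
    -- `Ψ ∘ f` is in `L²_loc`
    have hΨf : LL 2 fun x => Ψ (f x) := by
      intro K hK
      have := fin_restrict hK
      exact MemLp.of_bound (hΨ.continuous.comp_aestronglyMeasurable (hf.ll K hK).1) C₀
        (Eventually.of_forall fun x => h0 _)
    have hd : ContDiff ℝ ∞ (fderiv ℝ Ψ) := hΨ.fderiv_right (by simp)
    have hd' : ∀ n : ℕ, ∃ C : ℝ, ∀ y, ‖iteratedFDeriv ℝ n (fderiv ℝ Ψ) y‖ ≤ C := by
      intro n
      obtain ⟨C, hC⟩ := hb (n + 1)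
      exact ⟨C, fun y => by rw [norm_iteratedFDeriv_fderiv]; exact hC y⟩
    have hΨf' : LL 2 fun x => fderiv ℝ Ψ (f x) (f' x) :=
      ll_fun_mul (ContinuousLinearMap.id ℝ (V →L[ℝ] T)) hd.continuous h1 hf.ll sf.ll
    have W1 : IsWD volume (e i) (fun x => Ψ (f x)) (fun x => fderiv ℝ Ψ (f x) (f' x)) :=
      isWD_comp hΨ h1 (ll_locInt hf.ll) (ll_locInt sf.ll) (ll_locInt hΨf) Wf
    refine ⟨_, isWD_bilin c hΨf hΨf' hg.ll sg.ll W1 Wg, ?_⟩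
    refine sob_add ?_ (ih c Ψ hΨ hb (hf.mono (by omega)) sg)
    -- the term `Ψ'(f) (f' ⊗ g)`
    have b3 := @sob_bilin k V Z ((V →L[ℝ] T) →L[ℝ] Y) _ _ _ _ _ _ _ _ _
    have h3 := @b3 (dd c) f' g sf hg
    have h5 : Sob (k + 1) f := hf.mono (by omega)
    have h6 := @ih V (V →L[ℝ] T) ((V →L[ℝ] T) →L[ℝ] Y) Y _ _ _ _ _ _ _ _ _ _ _ _
    exact @h6 ap (fderiv ℝ Ψ) hd hd' f (fun x => dd c (f' x) (g x)) h5 h3

/-- **COMP** -/
theorem COMP : COMP_statement := by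
  intro V W _ _ _ _ _ _ Φ hΦ hb k f hk hf
  obtain ⟨m, rfl⟩ : ∃ m, k = m + 1 := ⟨k - 1, by omega⟩
  obtain ⟨C₁, hC₁⟩ := hb 1 le_rfl
  have h1 : ∀ y, ‖fderiv ℝ Φ y‖ ≤ C₁ := fun y => by
    have := hC₁ y
    rwa [norm_iteratedFDeriv_one] at this
  have hC0 : 0 ≤ C₁ := (norm_nonneg _).trans (h1 0)
  have hl : LL 2 fun x => Φ (f x) := by
    refine ll_comp hΦ.continuous (C := max C₁ ‖Φ 0‖) (fun y => ?_) hf.ll
    have e1 := norm_sub_le (hΦ.of_le (by simp)) h1 y 0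
    rw [sub_zero] at e1
    calc ‖Φ y‖ = ‖(Φ y - Φ 0) + Φ 0‖ := by rw [sub_add_cancel]
      _ ≤ ‖Φ y - Φ 0‖ + ‖Φ 0‖ := norm_add_le _ _
      _ ≤ C₁ * ‖y‖ + ‖Φ 0‖ := by linarith
      _ ≤ max C₁ ‖Φ 0‖ * ‖y‖ + max C₁ ‖Φ 0‖ := add_le_add
          (mul_le_mul_of_nonneg_right (le_max_left _ _) (norm_nonneg _)) (le_max_right _ _)
  refine ⟨hl, fun i => ?_⟩
  obtain ⟨f', Wf, sf⟩ := hf.2 i
  refine ⟨fun x => fderiv ℝ Φ (f x) (f' x),
    isWD_comp hΦ h1 (ll_locInt hf.ll) (ll_locInt sf.ll) (ll_locInt hl) Wf, ?_⟩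
  refine sob_fun_mul m (ContinuousLinearMap.id ℝ (V →L[ℝ] W)) (fderiv ℝ Φ)
    (hΦ.fderiv_right (by simp)) (fun n => ?_) hf sf
  obtain ⟨C, hC⟩ := hb (n + 1) (by omega)
  exact ⟨C, fun y => by rw [norm_iteratedFDeriv_fderiv]; exact hC y⟩

end Vale.Agent.P247.H520.Comp
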