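import Vale.Agent.P247.H447.E5.Basic
import Vale.Agent.P247.H399.Emb

/-!
# P247, package E5, COMP: chain rule and product rule for weak derivatives
-/

open scoped ContDiff Topology ENNReal NNReal
open Set MeasureTheory Filter Metric
open Vale.Agent.P247.H74 (R4 e)
open Vale.Agent.P363.R.Sob
open Vale.Agent.P247.H306
open Vale.Agent.P247.H447.E5

set_option linter.unusedSectionVars false

noncomputable section

namespace Vale.Agent.P247.H520.Comp

variable {V W X : Type*} [NormedAddCommGroup V] [NormedSpace ℝ V] [FiniteDimensional ℝ V]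
  [NormedAddCommGroup W] [NormedSpace ℝ W] [FiniteDimensional ℝ W]
  [NormedAddCommGroup X] [NormedSpace ℝ X] [FiniteDimensional ℝ X]

/-- a continuous Lipschitz function of an `L^p_loc` function -/
theorem ll_comp {p : ℝ≥0∞} {Φ : V → W} (hΦ : Continuous Φ) {C : ℝ}
    (hC : ∀ y, ‖Φ y‖ ≤ C * ‖y‖ + C) {f : R4 → V} (hf : LL p f) : LL p fun x => Φ (f x) := by
  intro K hK
  have := fin_restrict hK
  have h1 : MemLp (fun x => C * ‖f x‖ + C) p (volume.restrict K) :=
    ((hf K hK).norm.const_mul C).add (memLp_const C)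
  refine h1.mono (hΦ.comp_aestronglyMeasurable (hf K hK).1) (Eventually.of_forall fun x => ?_)
  exact (hC _).trans (Real.le_norm_self _)

/-- Lipschitz bound from a bound of the derivative -/
theorem norm_sub_le {Φ : V → W} (hΦ : ContDiff ℝ 1 Φ) {C : ℝ} (hC : ∀ y, ‖fderiv ℝ Φ y‖ ≤ C)
    (y z : V) : ‖Φ y - Φ z‖ ≤ C * ‖y - z‖ :=
  (convex_univ (𝕜 := ℝ) (E := V)).norm_image_sub_le_of_norm_fderiv_le
    (fun x _ => (hΦ.differentiable one_ne_zero) x) (fun x _ => hC x) (mem_univ z) (mem_univ y)

/-- **chain rule** -/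
theorem isWD_comp {Φ : V → W} (hΦ : ContDiff ℝ ∞ Φ) {C : ℝ} (hC : ∀ y, ‖fderiv ℝ Φ y‖ ≤ C)
    {v : R4} {f f' : R4 → V} (hf : LocallyIntegrable f volume) (hf' : LocallyIntegrable f' volume)
    (hfl : LocallyIntegrable (fun x => Φ (f x)) volume)
    (hW : IsWD volume v f f') :
    IsWD volume v (fun x => Φ (f x)) (fun x => fderiv ℝ Φ (f x) (f' x)) := by
  have hC0 : 0 ≤ C := (norm_nonneg _).trans (hC 0)
  have hd : Continuous (fderiv ℝ Φ) := hΦ.continuous_fderiv (by simp)
  have hg : LocallyIntegrable (fun x => fderiv ℝ Φ (f x) (f' x)) volume := by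
    rw [locallyIntegrable_iff]
    intro K hK
    have h1 : Integrable f' (volume.restrict K) := hf'.integrableOn_isCompact hK
    refine (h1.norm.const_mul C).mono' ?_ (Eventually.of_forall fun x => ?_)
    · have h2 : AEStronglyMeasurable (fun x => fderiv ℝ Φ (f x)) (volume.restrict K) :=
        hd.comp_aestronglyMeasurable (hf.integrableOn_isCompact hK).1
      exact (isBoundedBilinearMap_apply (𝕜 := ℝ) (E := V) (F := W)).continuous.comp_aestronglyMeasurable
        (h2.prodMk h1.1)
    · exact (fderiv ℝ Φ (f x)).le_of_opNorm_le (hC _) _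
  refine IsWD.of_tendsto_local hfl hg fun K hK => ?_
  obtain ⟨fn, h1, h2, h3, h4, -⟩ := hW.exists_local_approx hf hf' hK
  have hsm : ∀ n, ContDiff ℝ ∞ fun x => Φ (fn n x) := fun n => hΦ.comp (h1 n)
  have hder : ∀ n x, fderiv ℝ (fun x => Φ (fn n x)) x v =
      fderiv ℝ Φ (fn n x) (fderiv ℝ (fn n) x v) := by
    intro n x
    have e1 := fderiv_comp x (g := Φ) (f := fn n) ((hΦ.differentiable (by simp)) _)
      (((h1 n).differentiable (by simp)) x)
    have e2 : fderiv ℝ (fun x => Φ (fn n x)) x = fderiv ℝ (Φ ∘ fn n) x := rfl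
    rw [e2, e1]; rfl
  have hcd : ∀ n, Continuous fun x => fderiv ℝ Φ (fn n x) (fderiv ℝ (fn n) x v) := fun n =>
    (hd.comp (h1 n).continuous).clm_apply
      (((h1 n).continuous_fderiv (by simp)).clm_apply continuous_const)
  have hcd' : ∀ n, Continuous fun x => fderiv ℝ (fn n) x v := fun n =>
    ((h1 n).continuous_fderiv (by simp)).clm_apply continuous_const
  refine ⟨fun n x => Φ (fn n x), fun n x => fderiv ℝ Φ (fn n x) (fderiv ℝ (fn n) x v),
    fun n => ?_, fun n => (hsm n).continuous.locallyIntegrable,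
    fun n => (hcd n).locallyIntegrable, ?_, ?_⟩
  · refine isWD_of_differentiable (hsm n).continuous (fun x => ?_) (hcd n).locallyIntegrable
    have e1 := (((hsm n).differentiable (by simp)) x).hasFDerivAt.hasLineDerivAt v
    rw [hder n x] at e1
    exact e1
  · have hb : ∀ n, eLpNorm ((fun x => Φ (fn n x)) - fun x => Φ (f x)) 1 (volume.restrict K) ≤
        ENNReal.ofReal C * eLpNorm (fn n - f) 1 (volume.restrict K) := by
      intro n
      refine eLpNorm_le_mul_eLpNorm_of_ae_le_mul (Eventually.of_forall fun x => ?_) _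
      exact norm_sub_le (hΦ.of_le (by simp)) hC _ _
    have h0 := ENNReal.Tendsto.const_mul (a := ENNReal.ofReal C) h2 (Or.inr ENNReal.ofReal_ne_top)
    rw [mul_zero] at h0
    exact tendsto_of_tendsto_of_tendsto_of_le_of_le tendsto_const_nhds h0 (fun _ => zero_le) hb
  · -- two pieces
    have m' : AEStronglyMeasurable f' (volume.restrict K) := (hf'.integrableOn_isCompact hK).1
    have mf : AEStronglyMeasurable f (volume.restrict K) := (hf.integrableOn_isCompact hK).1
    have mA : ∀ n, AEStronglyMeasurable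
        (fun x => fderiv ℝ Φ (fn n x) (fderiv ℝ (fn n) x v - f' x)) (volume.restrict K) := by
      intro n
      exact (isBoundedBilinearMap_apply (𝕜 := ℝ) (E := V) (F := W)).continuous.comp_aestronglyMeasurable
        (((hd.comp (h1 n).continuous).aestronglyMeasurable).prodMk
          ((hcd' n).aestronglyMeasurable.sub m'))
    have mB : ∀ n, AEStronglyMeasurable
        (fun x => (fderiv ℝ Φ (fn n x) - fderiv ℝ Φ (f x)) (f' x)) (volume.restrict K) := by
      intro n
      exact (isBoundedBilinearMap_apply (𝕜 := ℝ) (E := V) (F := W)).continuous.comp_aestronglyMeasurable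
        ((((hd.comp (h1 n).continuous).aestronglyMeasurable).sub
          (hd.comp_aestronglyMeasurable mf)).prodMk m')
    have hA : Tendsto (fun n => eLpNorm
        (fun x => fderiv ℝ Φ (fn n x) (fderiv ℝ (fn n) x v - f' x)) 1 (volume.restrict K))
        atTop (𝓝 0) := by
      have hb : ∀ n, eLpNorm
          (fun x => fderiv ℝ Φ (fn n x) (fderiv ℝ (fn n) x v - f' x)) 1 (volume.restrict K) ≤
          ENNReal.ofReal C * eLpNorm ((fun x => fderiv ℝ (fn n) x v) - f') 1
            (volume.restrict K) := by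
        intro n
        refine eLpNorm_le_mul_eLpNorm_of_ae_le_mul (Eventually.of_forall fun x => ?_) _
        exact (fderiv ℝ Φ (fn n x)).le_of_opNorm_le (hC _) _
      have h0 := ENNReal.Tendsto.const_mul (a := ENNReal.ofReal C) h3
        (Or.inr ENNReal.ofReal_ne_top)
      rw [mul_zero] at h0
      exact tendsto_of_tendsto_of_tendsto_of_le_of_le tendsto_const_nhds h0 (fun _ => zero_le) hb
    have hB : Tendsto (fun n => eLpNorm
        (fun x => (fderiv ℝ Φ (fn n x) - fderiv ℝ Φ (f x)) (f' x)) 1 (volume.restrict K))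
        atTop (𝓝 0) := by
      simp only [eLpNorm_one_eq_lintegral_enorm]
      have h0 : (0 : ℝ≥0∞) = ∫⁻ x in K, (fun _ : R4 => (0 : ℝ≥0∞)) x := by simp
      rw [h0]
      refine tendsto_lintegral_of_dominated_convergence'
        (fun x => ENNReal.ofReal (2 * C) * ‖f' x‖ₑ) (fun n => (mB n).enorm) (fun n => ?_) ?_ ?_
      · refine Eventually.of_forall fun x => ?_
        have e1 : ‖(fderiv ℝ Φ (fn n x) - fderiv ℝ Φ (f x)) (f' x)‖ ≤ 2 * C * ‖f' x‖ := by
          refine (fderiv ℝ Φ (fn n x) - fderiv ℝ Φ (f x)).le_of_opNorm_le ?_ _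
          calc ‖fderiv ℝ Φ (fn n x) - fderiv ℝ Φ (f x)‖
              ≤ ‖fderiv ℝ Φ (fn n x)‖ + ‖fderiv ℝ Φ (f x)‖ := _root_.norm_sub_le _ _
            _ ≤ 2 * C := by linarith [hC (fn n x), hC (f x)]
        show ‖(fderiv ℝ Φ (fn n x) - fderiv ℝ Φ (f x)) (f' x)‖ₑ ≤ ENNReal.ofReal (2 * C) * ‖f' x‖ₑ
        rw [← ofReal_norm_eq_enorm, ← ofReal_norm_eq_enorm, ← ENNReal.ofReal_mul (by positivity)]
        exact ENNReal.ofReal_le_ofReal e1
      · have h5 : ∫⁻ x in K, ‖f' x‖ₑ < ⊤ := (hf'.integrableOn_isCompact hK).2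
        rw [lintegral_const_mul' _ _ ENNReal.ofReal_ne_top]
        exact (ENNReal.mul_lt_top ENNReal.ofReal_lt_top h5).ne
      · filter_upwards [h4] with x hx
        have e1 : Tendsto (fun n => (fderiv ℝ Φ (fn n x) - fderiv ℝ Φ (f x)) (f' x)) atTop
            (𝓝 ((fderiv ℝ Φ (f x) - fderiv ℝ Φ (f x)) (f' x))) := by
          have e2 : Tendsto (fun n => fderiv ℝ Φ (fn n x)) atTop (𝓝 (fderiv ℝ Φ (f x))) :=
            (hd.tendsto _).comp hx
          have e3 := (e2.sub_const (fderiv ℝ Φ (f x)))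
          exact ((ContinuousLinearMap.apply ℝ W (f' x)).continuous.tendsto _).comp e3
        have e4 := e1.enorm
        simpa using e4
    have hAB := hA.add hB
    rw [add_zero] at hAB
    refine tendsto_of_tendsto_of_tendsto_of_le_of_le tendsto_const_nhds hAB (fun _ => zero_le)
      fun n => ?_
    refine le_trans (le_of_eq ?_) (eLpNorm_add_le (mA n) (mB n) le_rfl)
    congr 1
    ext x
    simp only [Pi.sub_apply, Pi.add_apply, map_sub, sub_apply]
    abel

theorem memLp_smul_test {ψ : R4 → ℝ} (hψ : ContDiff ℝ ∞ ψ) (hs : HasCompactSupport ψ)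
    {u : R4 → V} (hu : LL 2 u) : MemLp (fun x => ψ x • u x) 2 volume := by
  obtain ⟨C, hC⟩ := hs.exists_bound_of_continuous hψ.continuous
  have e1 : (fun x => ψ x • u x) = (tsupport ψ).indicator fun x => ψ x • u x := by
    ext x
    by_cases hx : x ∈ tsupport ψ
    · rw [indicator_of_mem hx]
    · rw [indicator_of_notMem hx, image_eq_zero_of_notMem_tsupport hx, zero_smul]
  rw [e1, memLp_indicator_iff_restrict hs.isCompact.isClosed.measurableSet]
  refine ((hu _ hs.isCompact).norm.const_mul C).mono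
    (hψ.continuous.aestronglyMeasurable.smul (hu _ hs.isCompact).1)
    (Eventually.of_forall fun x => ?_)
  have h1 : ‖ψ x • u x‖ ≤ C * ‖u x‖ := by
    rw [norm_smul]
    exact mul_le_mul_of_nonneg_right (hC x) (norm_nonneg _)
  exact h1.trans (Real.le_norm_self _)

/-- **product rule** -/
theorem isWD_bilin (b : V →L[ℝ] W →L[ℝ] X) {v : R4} {f f' : R4 → V} {g g' : R4 → W}
    (hf : LL 2 f) (hf' : LL 2 f') (hg : LL 2 g) (hg' : LL 2 g')
    (Wf : IsWD volume v f f') (Wg : IsWD volume v g g') :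
    IsWD volume v (fun x => b (f x) (g x)) (fun x => b (f' x) (g x) + b (f x) (g' x)) := by
  haveI : CompleteSpace V := FiniteDimensional.complete ℝ V
  haveI : CompleteSpace W := FiniteDimensional.complete ℝ W
  haveI : CompleteSpace X := FiniteDimensional.complete ℝ X
  intro φ hφ
  obtain ⟨η, h1, h2, -, h3, h4⟩ := exists_cutoff (E := R4) hφ.2.isCompact isOpen_univ
    (subset_univ (tsupport φ))
  have hη' : ContDiff ℝ ∞ fun x => fderiv ℝ η x v :=
    (h1.fderiv_right (m := ∞) (by simp)).clm_apply contDiff_const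
  have hηs : HasCompactSupport fun x => fderiv ℝ η x v := h2.fderiv_apply (𝕜 := ℝ) v
  have a1 := memLp_smul_test h1 h2 hf
  have a2 : MemLp (fun x => (fderiv ℝ η x v) • f x + η x • f' x) 2 volume :=
    (memLp_smul_test hη' hηs hf).add (memLp_smul_test h1 h2 hf')
  have a3 := memLp_smul_test h1 h2 hg
  have a4 : MemLp (fun x => (fderiv ℝ η x v) • g x + η x • g' x) 2 volume :=
    (memLp_smul_test hη' hηs hg).add (memLp_smul_test h1 h2 hg')
  have a5 := Wf.smooth_smul h1 (ll_locInt hf) (ll_locInt hf')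
  have a6 := Wg.smooth_smul h1 (ll_locInt hg) (ll_locInt hg')
  have key := IsWD.bilin (μ := volume) (v := v) b a1 a2 a3 a4 a5 a6 φ hφ
  have hone : ∀ x ∈ tsupport φ, η x = 1 ∧ fderiv ℝ η x v = 0 := by
    intro x hx
    have e1 : ∀ᶠ y in 𝓝 x, η y = 1 := h3.filter_mono (nhds_le_nhdsSet hx)
    refine ⟨e1.self_of_nhds, ?_⟩
    have e2 : η =ᶠ[𝓝 x] fun _ => (1 : ℝ) := e1
    rw [e2.fderiv_eq]; simp
  have k1 : ∫ x, (fderiv ℝ φ x v) • b (η x • f x) (η x • g x) ∂(volume : Measure R4) =
      ∫ x, (fderiv ℝ φ x v) • b (f x) (g x) ∂(volume : Measure R4) := by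
    refine integral_congr_ae (Eventually.of_forall fun x => ?_)
    by_cases hx : x ∈ tsupport φ
    · simp only [(hone x hx).1, one_smul]
    · have : fderiv ℝ φ x v = 0 := by
        have e0 : φ =ᶠ[𝓝 x] fun _ => (0 : ℝ) := by
          have := (isClosed_tsupport φ).isOpen_compl.mem_nhds hx
          filter_upwards [this] with y hy
          exact image_eq_zero_of_notMem_tsupport hy
        rw [e0.fderiv_eq]; simp
      simp only [this, zero_smul]
  have k2 : ∫ x, φ x • (b ((fderiv ℝ η x v) • f x + η x • f' x) (η x • g x) +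
        b (η x • f x) ((fderiv ℝ η x v) • g x + η x • g' x)) ∂(volume : Measure R4) =
      ∫ x, φ x • (b (f' x) (g x) + b (f x) (g' x)) ∂(volume : Measure R4) := by
    refine integral_congr_ae (Eventually.of_forall fun x => ?_)
    by_cases hx : x ∈ tsupport φ
    · simp only [(hone x hx).1, (hone x hx).2, one_smul, zero_smul, zero_add]
    · simp only [image_eq_zero_of_notMem_tsupport hx, zero_smul]
  simp only [Pi.add_apply] at key
  rw [k1] at key
  rw [key]
  congr 1

end Vale.Agent.P247.H520.Comp
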