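import Vale.Agent.P247.H94.P4
import Vale.Agent.P247.H74.SP.Main

/-! # P247, layer C: the leading term of the difference of two `J`-discs (local version) -/

open scoped ContDiff Topology
open Set Filter Metric Asymptotics Vale.Agent.P247.H74 Vale.Agent.P247.H94

noncomputable section

namespace Vale.Agent.P247.H520

/-- the difference of two `J`-holomorphic curves through the same point -/
theorem diff_loc (SP : SP_statement) (D : Data) (u v : ℂ → R4) (z₀ : ℂ) (hus : ContDiff ℝ ∞ u)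
    (hue : ∀ᶠ z in 𝓝 z₀, fderiv ℝ u z Complex.I = D.J (u z) (fderiv ℝ u z 1))
    (hvs : ContDiff ℝ ∞ v)
    (hve : ∀ᶠ z in 𝓝 z₀, fderiv ℝ v z Complex.I = D.J (v z) (fderiv ℝ v z 1))
    (h0 : u z₀ = v z₀) :
    (∀ᶠ z in 𝓝 z₀, u z = v z) ∨ ∃ (m : ℕ) (a : R4), 1 ≤ m ∧ a ≠ 0 ∧
      (fun z => u z - v z - cm D (u z₀) ((z - z₀) ^ m) a) =o[𝓝 z₀] (fun z => ‖z - z₀‖ ^ m) := by
  classical
  set x₀ := u z₀ with hx₀
  set w : ℂ → R4 := fun z => u z - v z with hw
  have hws : ContDiff ℝ ∞ w := hus.sub hvs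
  have hw0 : w z₀ = 0 := by simp [hw, ← hx₀, h0]
  set M : ℂ → R4 →L[ℝ] (Fin 4 → ℂ) := fun z => Mm D x₀ (u z) with hM
  have hMs : ContDiff ℝ ∞ M := (Mm_smooth D x₀).comp hus
  have hM0 : M z₀ = iota (D.J x₀) := Mm_self D x₀
  set W : ℂ → Fin 4 → ℂ := fun z => M z (w z) with hW
  have hWs : ContDiff ℝ ∞ W := hMs.clm_apply hws
  -- `w` is bounded by `W`
  have hwW : ∀ᶠ z in 𝓝 z₀, ‖w z‖ ≤ 2 * ‖W z‖ := by
    have hc : Tendsto (fun z => ‖M z - M z₀‖) (𝓝 z₀) (𝓝 0) := by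
      have : Continuous (fun z => ‖M z - M z₀‖) := by
        have := hMs.continuous
        fun_prop
      simpa using this.tendsto z₀
    filter_upwards [hc.eventually (gt_mem_nhds (show (0 : ℝ) < 1 / 2 by norm_num))] with z hz
    have h1 : ‖w z‖ ≤ ‖M z₀ (w z)‖ := by rw [hM0]; exact norm_le_iota _ _
    have h2 : ‖(M z - M z₀) (w z)‖ ≤ 1 / 2 * ‖w z‖ :=
      ((M z - M z₀).le_opNorm _).trans (by gcongr)
    have h3 : M z₀ (w z) = W z - (M z - M z₀) (w z) := by
      rw [_root_.sub_apply]; simp only [hW]; abel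
    have h4 : ‖M z₀ (w z)‖ ≤ ‖W z‖ + ‖(M z - M z₀) (w z)‖ := by
      rw [h3]; exact norm_sub_le _ _
    linarith
  -- the error term
  set A : ℂ → R4 := fun z => (D.J (u z) - D.J (v z)) (fderiv ℝ v z 1) with hA
  have hAe : ∀ᶠ z in 𝓝 z₀, fderiv ℝ w z Complex.I = D.J (u z) (fderiv ℝ w z 1) + A z := by
    filter_upwards [hue, hve] with z hue hve
    have h1 : fderiv ℝ w z = fderiv ℝ u z - fderiv ℝ v z :=
      fderiv_fun_sub (hus.differentiable (by simp) z) (hvs.differentiable (by simp) z)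
    rw [h1]
    simp only [hA, _root_.sub_apply, hue, hve, map_sub]
    abel
  have hAb : ∃ K : ℝ, ∀ᶠ z in 𝓝 z₀, ‖A z‖ ≤ K * ‖w z‖ := by
    obtain ⟨K, t, ht, hK⟩ :=
      ((D.J_smooth.of_le (by simp : (1 : WithTop ℕ∞) ≤ ∞)).contDiffAt
        (x := x₀)).exists_lipschitzOnWith
    have hvb : ∀ᶠ z in 𝓝 z₀, ‖fderiv ℝ v z 1‖ ≤ ‖fderiv ℝ v z₀ 1‖ + 1 := by
      have : Continuous (fun z => ‖fderiv ℝ v z 1‖) :=
        ((hvs.continuous_fderiv (by simp)).clm_apply continuous_const).norm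
      exact (this.tendsto z₀).eventually (ge_mem_nhds (by linarith))
    have hut : ∀ᶠ z in 𝓝 z₀, u z ∈ t := (hus.continuous.tendsto z₀).eventually ht
    have hvt : ∀ᶠ z in 𝓝 z₀, v z ∈ t := by
      have := hvs.continuous.tendsto z₀
      rw [← h0] at this
      exact this.eventually ht
    refine ⟨K * (‖fderiv ℝ v z₀ 1‖ + 1), ?_⟩
    filter_upwards [hvb, hut, hvt] with z h1 h2 h3
    have h4 := hK.dist_le_mul _ h2 _ h3
    rw [dist_eq_norm, dist_eq_norm] at h4
    calc ‖A z‖ ≤ ‖D.J (u z) - D.J (v z)‖ * ‖fderiv ℝ v z 1‖ := ContinuousLinearMap.le_opNorm _ _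
      _ ≤ (K * ‖u z - v z‖) * (‖fderiv ℝ v z₀ 1‖ + 1) := by gcongr
      _ = K * (‖fderiv ℝ v z₀ 1‖ + 1) * ‖w z‖ := by simp only [hw]; ring
  -- the differential inequality
  have hdb : ∃ C : ℝ, ∀ᶠ z in 𝓝 z₀, ‖dbar W z‖ ≤ C * ‖W z‖ := by
    obtain ⟨K, hK⟩ := hAb
    have hK' : ∀ᶠ z in 𝓝 z₀, ‖A z‖ ≤ |K| * ‖w z‖ := by
      filter_upwards [hK] with z hz
      exact hz.trans (mul_le_mul_of_nonneg_right (le_abs_self K) (norm_nonneg _))
    have hMd : Continuous (fderiv ℝ M) := hMs.continuous_fderiv (by simp)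
    have c1 : Continuous (fun z => ‖fderiv ℝ M z 1‖ + ‖fderiv ℝ M z Complex.I‖) := by fun_prop
    have c2 : Continuous (fun z => ‖M z‖ * ‖D.J (u z)‖) := by
      have := hMs.continuous
      have h2 := D.J_smooth.continuous.comp hus.continuous
      exact this.norm.mul h2.norm
    set B1 := ‖fderiv ℝ M z₀ 1‖ + ‖fderiv ℝ M z₀ Complex.I‖ + 1 with hB1
    set B2 := ‖M z₀‖ * ‖D.J (u z₀)‖ + 1 with hB2
    have b1 : ∀ᶠ z in 𝓝 z₀, ‖fderiv ℝ M z 1‖ + ‖fderiv ℝ M z Complex.I‖ ≤ B1 :=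
      (c1.tendsto z₀).eventually (ge_mem_nhds (by rw [hB1]; linarith))
    have b2 : ∀ᶠ z in 𝓝 z₀, ‖M z‖ * ‖D.J (u z)‖ ≤ B2 :=
      (c2.tendsto z₀).eventually (ge_mem_nhds (by rw [hB2]; linarith))
    refine ⟨(B1 + B2 * |K|), ?_⟩
    filter_upwards [hwW, hK', b1, b2, hAe] with z hz hKz h1 h2 hAz
    have key := dbar_frame D x₀ (hus.differentiable (by simp) z)
      (hws.differentiable (by simp) z) hAz
    change dbar W z = _ at key
    rw [key, norm_smul]
    have t1 : ‖fderiv ℝ M z 1 (w z)‖ ≤ ‖fderiv ℝ M z 1‖ * ‖w z‖ :=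
      ContinuousLinearMap.le_opNorm _ _
    have t2 : ‖Complex.I • fderiv ℝ M z Complex.I (w z)‖ ≤ ‖fderiv ℝ M z Complex.I‖ * ‖w z‖ := by
      rw [norm_smul, Complex.norm_I, one_mul]
      exact ContinuousLinearMap.le_opNorm _ _
    have t3 : ‖M z (D.J (u z) (A z))‖ ≤ B2 * (|K| * ‖w z‖) := by
      calc ‖M z (D.J (u z) (A z))‖ ≤ ‖M z‖ * ‖D.J (u z) (A z)‖ :=
            ContinuousLinearMap.le_opNorm _ _
        _ ≤ ‖M z‖ * (‖D.J (u z)‖ * ‖A z‖) := by
            gcongr; exact ContinuousLinearMap.le_opNorm _ _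
        _ = ‖M z‖ * ‖D.J (u z)‖ * ‖A z‖ := by ring
        _ ≤ B2 * (|K| * ‖w z‖) := by gcongr
    have t4 : ‖(fderiv ℝ M z 1) (w z) + Complex.I • (fderiv ℝ M z Complex.I) (w z)
        + (M z) ((D.J (u z)) (A z))‖ ≤ (B1 + B2 * |K|) * ‖w z‖ := by
      refine (norm_add₃_le).trans ?_
      have : ‖fderiv ℝ M z 1‖ * ‖w z‖ + ‖fderiv ℝ M z Complex.I‖ * ‖w z‖ ≤ B1 * ‖w z‖ := by
        rw [← add_mul]; gcongr
      linarith
    have hB : 0 ≤ B1 + B2 * |K| := by positivity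
    calc ‖(1 / 2 : ℂ)‖ * ‖(fderiv ℝ M z 1) (w z) + Complex.I • (fderiv ℝ M z Complex.I) (w z)
        + (M z) ((D.J (u z)) (A z))‖ ≤ 1 / 2 * ((B1 + B2 * |K|) * ‖w z‖) := by
          have : ‖(1 / 2 : ℂ)‖ = 1 / 2 := by norm_num
          rw [this]
          gcongr
      _ ≤ 1 / 2 * ((B1 + B2 * |K|) * (2 * ‖W z‖)) := by gcongr
      _ = (B1 + B2 * |K|) * ‖W z‖ := by ring
  obtain ⟨C, hC⟩ := hdb
  obtain ⟨R, hR, hb⟩ := Metric.eventually_nhds_iff_ball.1 hC
  -- apply the similarity principle to the translate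
  have hsp := SP 4 (fun z => W (z + z₀)) R C hR
    ((hWs.continuous.comp (continuous_add_const z₀)).continuousOn)
    (((hWs.comp (contDiff_id.add contDiff_const)).of_le (by simp)).contDiffOn) (by
      intro z hz
      have h1 : dbar (fun z => W (z + z₀)) z = dbar W (z + z₀) := by
        unfold dbar
        rw [fderiv_comp_add_right]
      rw [h1]
      apply hb
      rw [mem_ball, dist_eq_norm, add_sub_cancel_right]
      simpa using hz.1)
  rcases hsp with ⟨r, hr, hz⟩ | ⟨m, a, ha, hlo⟩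
  · left
    filter_upwards [hwW, Metric.ball_mem_nhds z₀ hr] with z h1 h2
    have h3 : W z = 0 := by
      have := hz (z - z₀) (by rwa [mem_ball, dist_eq_norm, sub_zero, ← dist_eq_norm])
      simpa using this
    rw [h3, norm_zero, mul_zero] at h1
    exact sub_eq_zero.1 (norm_le_zero_iff.1 h1)
  right
  -- the expansion at `z₀`
  have htend : Tendsto (fun z : ℂ => z - z₀) (𝓝 z₀) (𝓝 0) := by
    have : Continuous (fun z : ℂ => z - z₀) := by fun_prop
    simpa using this.tendsto z₀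
  have hexp : (fun z => W z - (z - z₀) ^ m • a) =o[𝓝 z₀] (fun z => ‖z - z₀‖ ^ m) := by
    have := hlo.comp_tendsto htend
    have h2 := this.norm_right
    refine (h2.congr ?_ ?_)
    · intro z; simp
    · intro z; simp
  set α : R4 := reV a with hα
  set β : R4 := imV a with hβ
  have hrel : β = -D.J x₀ α := by
    set Q : (Fin 4 → ℂ) →L[ℝ] R4 := imV + (D.J x₀).comp reV with hQ
    have hQW : ∀ z, Q (W z) = 0 := by
      intro z
      simp only [hQ, _root_.add_apply, ContinuousLinearMap.comp_apply]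
      change imV (iota (D.J x₀) (Phm D x₀ (u z) (w z))) + _ = _
      change _ + D.J x₀ (reV (iota (D.J x₀) (Phm D x₀ (u z) (w z)))) = 0
      rw [imV_iota, reV_iota, neg_add_cancel]
    set P : ℂ →L[ℝ] R4 :=
      Q.comp ((ContinuousLinearMap.smulRight (1 : ℂ →L[ℂ] ℂ) a).restrictScalars ℝ) with hP
    have hPa : ∀ ζ : ℂ, P ζ = Q (ζ • a) := by
      intro ζ; simp [hP]
    have h1 := lin_littleO P z₀ m ?_
    · rw [hPa, one_smul] at h1
      exact eq_neg_of_add_eq_zero_left h1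
    · have h2 := (Q.isBigO_comp (fun z => W z - (z - z₀) ^ m • a) (𝓝 z₀)).trans_isLittleO hexp
      refine (h2.neg_left).congr_left ?_
      intro z
      rw [hPa, map_sub, hQW]
      simp
  have hcm : ∀ ζ : ℂ, reV (ζ • a) = cm D x₀ ζ α := by
    intro ζ
    funext i
    have hβi : (a i).im = -(D.J x₀ α) i := by
      have := congrFun hrel i
      rw [hβ, imV_apply] at this
      rw [this]; rfl
    rw [reV_apply, Pi.smul_apply, smul_eq_mul, Complex.mul_re, hβi]
    simp only [cm, Pi.add_apply, Pi.smul_apply, smul_eq_mul]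
    rw [hα, reV_apply]
    ring
  have hα0 : α ≠ 0 := by
    intro h
    apply ha
    have hβ0 : β = 0 := by rw [hrel, h, map_zero, neg_zero]
    funext i
    apply Complex.ext
    · have := congrFun h i; exact this
    · have := congrFun hβ0 i; exact this
  have hwO : w =O[𝓝 z₀] (fun z => ‖z - z₀‖ ^ m) := by
    have h1 : w =O[𝓝 z₀] W := IsBigO.of_bound 2 hwW
    have h2 : W =O[𝓝 z₀] (fun z => ‖z - z₀‖ ^ m) := by
      have h3 : (fun z => (z - z₀) ^ m • a) =O[𝓝 z₀] (fun z => ‖z - z₀‖ ^ m) := by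
        refine IsBigO.of_bound ‖a‖ (Eventually.of_forall fun z => ?_)
        rw [norm_smul, norm_pow, norm_pow, norm_norm, mul_comm]
      have := hexp.isBigO.add h3
      simpa using this
    exact h1.trans h2
  have hmain : (fun z => w z - cm D x₀ ((z - z₀) ^ m) α) =o[𝓝 z₀] (fun z => ‖z - z₀‖ ^ m) := by
    have e1 : (fun z => reV (W z - (z - z₀) ^ m • a)) =o[𝓝 z₀] (fun z => ‖z - z₀‖ ^ m) :=
      (reV.isBigO_comp (fun z => W z - (z - z₀) ^ m • a) (𝓝 z₀)).trans_isLittleO hexp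
    have e2 : (fun z => (ContinuousLinearMap.id ℝ R4 - Phm D x₀ (u z)) (w z)) =o[𝓝 z₀]
        (fun z => ‖z - z₀‖ ^ m) := by
      refine IsLittleO.trans_isBigO ?_ hwO
      rw [isLittleO_iff]
      intro c hc
      have : Continuous (fun z => ‖ContinuousLinearMap.id ℝ R4 - Phm D x₀ (u z)‖) := by
        have h1 := (Phm_smooth D x₀).continuous.comp hus.continuous
        exact (continuous_const.sub h1).norm
      have ht := this.tendsto z₀
      rw [show u z₀ = x₀ from rfl, Phm_self, sub_self, norm_zero] at ht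
      filter_upwards [ht.eventually (gt_mem_nhds hc)] with z hz
      exact (ContinuousLinearMap.le_opNorm _ _).trans (by gcongr)
    refine (e1.add e2).congr_left ?_
    intro z
    rw [map_sub, hcm]
    have : reV (W z) = Phm D x₀ (u z) (w z) := reV_iota _ _
    rw [this, _root_.sub_apply, ContinuousLinearMap.id_apply]
    abel
  refine ⟨m, α, ?_, hα0, hmain⟩
  by_contra hm
  obtain rfl : m = 0 := by omega
  have h1 := apply_eq_zero_of_littleO hmain
  simp only [pow_zero, hw0, zero_sub, neg_eq_zero] at h1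
  rw [← cmL_apply, cmL_one] at h1
  exact hα0 h1

end Vale.Agent.P247.H520
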