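import Vale.Agent.P247.H520.DiffLoc
import Vale.Agent.P247.H574.Sta2

/-! # P247, layer C: leading terms of `J`-discs, with derivatives -/

open scoped ContDiff Topology
open Set Filter Metric Asymptotics Vale.Agent.P247.H74 Vale.Agent.P247.H94 Vale.Agent.P247.H574

noncomputable section

namespace Vale.Agent.P247.H520

/-- a smooth map on the disc of radius `2` agrees with a smooth map on `ℂ` on the unit disc -/
theorem exists_ext {F : Type*} [NormedAddCommGroup F] [NormedSpace ℝ F] {u : ℂ → F}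
    (hu : ContDiffOn ℝ ∞ u (ball 0 2)) :
    ∃ v : ℂ → F, ContDiff ℝ ∞ v ∧ ∀ z ∈ closedBall (0 : ℂ) 1, v z = u z := by
  let f : ContDiffBump (0 : ℂ) := ⟨1, 3 / 2, one_pos, by norm_num⟩
  refine ⟨fun z => f z • u z, ?_, fun z hz => ?_⟩
  · rw [contDiff_iff_contDiffAt]
    intro z
    by_cases hz : z ∈ ball (0 : ℂ) 2
    · exact f.contDiff.contDiffAt.smul (hu.contDiffAt (isOpen_ball.mem_nhds hz))
    · have h1 : (fun z => f z • u z) =ᶠ[𝓝 z] fun _ => 0 := by
        have h2 : (closedBall (0 : ℂ) (3 / 2))ᶜ ∈ 𝓝 z := by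
          refine isClosed_closedBall.isOpen_compl.mem_nhds ?_
          rw [mem_compl_iff, mem_closedBall]
          rw [mem_ball] at hz
          intro h
          exact hz (lt_of_le_of_lt h (by norm_num))
        filter_upwards [h2] with y hy
        have : f y = 0 := by
          apply f.zero_of_le_dist
          rw [mem_compl_iff, mem_closedBall, not_le] at hy
          exact hy.le
        rw [this, zero_smul]
      exact contDiffAt_const.congr_of_eventuallyEq h1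
  · have : f z = 1 := f.one_of_mem_closedBall hz
    simp only [this, one_smul]

theorem JDisc_const (D : Data) (x : R4) : JDisc D (fun _ => x) :=
  ⟨contDiffOn_const, fun z _ => by simp⟩

/-- the derivative of `z ↦ cm D x (z ^ k) a` -/
theorem hasFDerivAt_cm_pow (D : Data) (x a : R4) (k : ℕ) (z : ℂ) :
    HasFDerivAt (fun z : ℂ => cm D x (z ^ k) a) ((cmL D x a).comp
      ((ContinuousLinearMap.smulRight (1 : ℂ →L[ℂ] ℂ) ((k : ℂ) * z ^ (k - 1))).restrictScalars ℝ)) z := by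
  have e1 : HasFDerivAt (fun z : ℂ => z ^ k)
      ((ContinuousLinearMap.smulRight (1 : ℂ →L[ℂ] ℂ)
        ((k : ℂ) * z ^ (k - 1))).restrictScalars ℝ) z :=
    (hasDerivAt_pow k z).hasFDerivAt.restrictScalars ℝ
  exact ((cmL D x a).hasFDerivAt).comp z e1

/-- leading term of the difference of two `J`-discs through the same point -/
theorem disc_diff {D : Data} {u v : ℂ → R4} (hu : JDisc D u) (hv : JDisc D v) (h0 : u 0 = v 0) :
    (∀ᶠ z in 𝓝 (0 : ℂ), u z = v z) ∨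
    ∃ (k : ℕ) (a : R4), 1 ≤ k ∧ a ≠ 0 ∧ ∃ C > 0, ∀ᶠ z in 𝓝 (0 : ℂ),
      ‖u z - v z - cm D (u 0) (z ^ k) a‖ ≤ C * ‖z‖ ^ (k + 1) ∧
      ∀ w, ‖fderiv ℝ u z w - fderiv ℝ v z w - cm D (u 0) (k * z ^ (k - 1) * w) a‖
        ≤ C * ‖z‖ ^ k * ‖w‖ := by
  obtain ⟨U, hU, hUu⟩ := exists_ext hu.smooth
  obtain ⟨V, hV, hVv⟩ := exists_ext hv.smooth
  have hcb : ∀ᶠ z in 𝓝 (0 : ℂ), z ∈ ball (0 : ℂ) 1 := ball_mem_nhds _ one_pos
  have eU : ∀ z ∈ ball (0 : ℂ) 1, U =ᶠ[𝓝 z] u := by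
    intro z hz
    filter_upwards [isOpen_ball.mem_nhds hz] with y hy
    exact hUu y (ball_subset_closedBall hy)
  have eV : ∀ z ∈ ball (0 : ℂ) 1, V =ᶠ[𝓝 z] v := by
    intro z hz
    filter_upwards [isOpen_ball.mem_nhds hz] with y hy
    exact hVv y (ball_subset_closedBall hy)
  have hb2 : ∀ z ∈ ball (0 : ℂ) 1, z ∈ ball (0 : ℂ) 2 := fun z hz =>
    ball_subset_ball (by norm_num) hz
  have hUe : ∀ᶠ z in 𝓝 (0 : ℂ), fderiv ℝ U z Complex.I = D.J (U z) (fderiv ℝ U z 1) := by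
    filter_upwards [hcb] with z hz
    rw [(eU z hz).fderiv_eq, (eU z hz).eq_of_nhds]
    exact hu.hol z (hb2 z hz)
  have hVe : ∀ᶠ z in 𝓝 (0 : ℂ), fderiv ℝ V z Complex.I = D.J (V z) (fderiv ℝ V z 1) := by
    filter_upwards [hcb] with z hz
    rw [(eV z hz).fderiv_eq, (eV z hz).eq_of_nhds]
    exact hv.hol z (hb2 z hz)
  have m0 : (0 : ℂ) ∈ ball (0 : ℂ) 1 := mem_ball_self one_pos
  have hU0 : U 0 = u 0 := (eU 0 m0).eq_of_nhds
  have hV0 : V 0 = v 0 := (eV 0 m0).eq_of_nhds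
  rcases diff_loc SP D U V 0 hU hUe hV hVe (by rw [hU0, hV0, h0]) with h | ⟨k, a, hk, ha, h⟩
  · left
    filter_upwards [h, hcb] with z hz hz1
    rw [← (eU z hz1).eq_of_nhds, ← (eV z hz1).eq_of_nhds, hz]
  right
  rw [hU0] at h
  simp only [sub_zero] at h
  refine ⟨k, a, hk, ha, ?_⟩
  set f : ℂ → R4 := fun z => U z - V z - cm D (u 0) (z ^ k) a with hf
  have hcm : ContDiff ℝ ∞ (fun z : ℂ => cm D (u 0) (z ^ k) a) := by
    have := smooth_cm D (u 0) a 0 k
    simpa using this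
  have hfs : ContDiff ℝ ∞ f := (hU.sub hV).sub hcm
  have h' : f =o[𝓝 0] (fun z => ‖z - 0‖ ^ k) := by simpa using h
  have hjet := jet_of_littleO.{0, 0} (0 : ℂ) k R4 f hfs h'
  have hO : ∀ j ≤ k + 1, (fun z => iteratedFDeriv ℝ j f z) =O[𝓝 0]
      (fun z => ‖z - 0‖ ^ (k + 1 - j)) := fun j hj =>
    bigO_iter.{0, 0} 0 j (k + 1) R4 f hj hfs (fun i hi => hjet i (by omega))
  have h0O := hO 0 (by omega)
  have h1O := hO 1 (by omega)
  rw [← isBigO_norm_left] at h0O h1O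
  simp only [norm_iteratedFDeriv_zero, norm_iteratedFDeriv_one, isBigO_norm_left, sub_zero,
    Nat.sub_zero, Nat.add_sub_cancel] at h0O h1O
  obtain ⟨C0, hC0, hb0⟩ := h0O.exists_pos
  obtain ⟨C1, hC1, hb1⟩ := h1O.exists_pos
  rw [isBigOWith_iff] at hb0 hb1
  refine ⟨max C0 C1, lt_max_of_lt_left hC0, ?_⟩
  filter_upwards [hb0, hb1, hcb] with z h2 h3 hz
  rw [norm_pow, norm_norm] at h2 h3
  refine ⟨?_, fun w => ?_⟩
  · have h4 : f z = u z - v z - cm D (u 0) (z ^ k) a := by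
      simp only [hf, (eU z hz).eq_of_nhds, (eV z hz).eq_of_nhds]
    rw [← h4]
    refine h2.trans ?_
    gcongr
    exact le_max_left _ _
  · have e1 := (smooth_diff hU z).hasFDerivAt
    have e2 := (smooth_diff hV z).hasFDerivAt
    have e3 := hasFDerivAt_cm_pow D (u 0) a k z
    have e4 := (e1.sub e2).sub e3
    have e5 : fderiv ℝ f z = _ := e4.fderiv
    have e6 : fderiv ℝ f z w = fderiv ℝ u z w - fderiv ℝ v z w
        - cm D (u 0) (k * z ^ (k - 1) * w) a := by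
      rw [e5, (eU z hz).fderiv_eq, (eV z hz).fderiv_eq]
      simp only [_root_.sub_apply, ContinuousLinearMap.comp_apply, cmL_apply]
      congr 2
      simp [mul_comm]
    rw [← e6]
    refine ((fderiv ℝ f z).le_opNorm w).trans ?_
    gcongr
    refine h3.trans ?_
    gcongr
    exact le_max_right _ _

/-- leading term of a nonconstant `J`-disc -/
theorem disc_exp {D : Data} {u : ℂ → R4} (hu : JDisc D u)
    (hi : ∀ z ∈ ball (0 : ℂ) 2, z ≠ 0 → fderiv ℝ u z 1 ≠ 0) :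
    ∃ (k : ℕ) (a : R4), 1 ≤ k ∧ a ≠ 0 ∧ ∃ C > 0, ∀ᶠ z in 𝓝 (0 : ℂ),
      ‖u z - u 0 - cm D (u 0) (z ^ k) a‖ ≤ C * ‖z‖ ^ (k + 1) ∧
      ∀ w, ‖fderiv ℝ u z w - cm D (u 0) (k * z ^ (k - 1) * w) a‖ ≤ C * ‖z‖ ^ k * ‖w‖ := by
  rcases disc_diff hu (JDisc_const D (u 0)) rfl with h | ⟨k, a, hk, ha, C, hC, h⟩
  · exfalso
    obtain ⟨ε, hε, hb⟩ := Metric.eventually_nhds_iff_ball.1 h
    have hp : 0 < min (ε / 2) 1 := by positivity
    set z : ℂ := ((min (ε / 2) 1 : ℝ) : ℂ) with hz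
    have hzn : ‖z‖ = min (ε / 2) 1 := by
      rw [hz, Complex.norm_real, Real.norm_eq_abs, abs_of_pos hp]
    have hz0 : z ≠ 0 := by
      rw [← norm_pos_iff, hzn]
      exact hp
    have hz2 : z ∈ ball (0 : ℂ) 2 := by
      rw [mem_ball_zero_iff, hzn]
      exact lt_of_le_of_lt (min_le_right _ _) (by norm_num)
    have hzε : z ∈ ball (0 : ℂ) ε := by
      rw [mem_ball_zero_iff, hzn]
      exact lt_of_le_of_lt (min_le_left _ _) (by linarith)
    have h1 : u =ᶠ[𝓝 z] fun _ => u 0 := by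
      filter_upwards [isOpen_ball.mem_nhds hzε] with y hy
      exact hb y hy
    apply hi z hz2 hz0
    rw [h1.fderiv_eq]
    simp
  · refine ⟨k, a, hk, ha, C, hC, ?_⟩
    filter_upwards [h] with z hz
    refine ⟨hz.1, fun w => ?_⟩
    have := hz.2 w
    simpa using this

end Vale.Agent.P247.H520
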