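import Vale.Agent.P247.H931.S1.Sta
import Vale.Agent.P247.H667.Unf
import Vale.Agent.P247.H957.Fl1

/-!
# P247, `EXT`: quasi-periodic extension of square integrable functions on the unit cube
-/

open scoped ContDiff Topology
open Set MeasureTheory Filter Metric Complex

noncomputable section

namespace Vale.Agent.P247.H520

open Vale.Agent.P247.H74 Vale.Agent.P247.H574 Vale.Agent.P247.H647 Vale.Agent.P247.H957
open Vale.Agent.P247.H667 (Q4 Q4_ae measurableSet_Q4 Qk measurableSet_Qk Qk_disj mp_tr me_tr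
  preimage_Qk FN mem_FN ball_subset_Qk far)
open Vale.Agent.P247.H931.S1 (LocL2 WkD)

/-! ## Integer and fractional parts -/

def flo (x : R4) : Fin 4 → ℤ := fun i => ⌊x i⌋

def fra (x : R4) : R4 := fun i => Int.fract (x i)

theorem tr_flo_fra (x : R4) : tr (flo x) (fra x) = x := by
  funext i
  simp [tr, flo, fra, Int.fract_add_floor]

theorem flo_tr (k : Fin 4 → ℤ) (x : R4) : flo (tr k x) = flo x + k := by
  funext i
  simp [flo, tr]

theorem fra_tr (k : Fin 4 → ℤ) (x : R4) : fra (tr k x) = fra x := by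
  funext i
  simp [fra, tr]

theorem fra_mem (x : R4) : fra x ∈ Q4 := fun i _ => ⟨Int.fract_nonneg _, Int.fract_lt_one _⟩

theorem flo_of_mem {x : R4} (hx : x ∈ Q4) : flo x = 0 := by
  funext i
  exact Int.floor_eq_zero_iff.2 (hx i (mem_univ i))

theorem fra_of_mem {x : R4} (hx : x ∈ Q4) : fra x = x := by
  funext i
  exact Int.fract_eq_self.2 (hx i (mem_univ i))

theorem chi_zero (x : R4) : chi 0 x = 1 := by simp [chi]

theorem chi_add (k l : Fin 4 → ℤ) (x : R4) : chi (k + l) x = chi k x * chi l x := by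
  simp only [chi, Pi.add_apply]
  rw [← exp_add]
  congr 1
  push_cast
  ring

theorem chi_tr (k l : Fin 4 → ℤ) (x : R4) : chi k (tr l x) = chi k x := by
  simp only [chi, tr]
  have : (2 * Real.pi * I * (k 0) * ((x 1 + l 1 : ℝ) : ℂ)) =
      2 * Real.pi * I * k 0 * x 1 + ((k 0 * l 1 : ℤ) : ℂ) * (2 * Real.pi * I) := by
    push_cast
    ring
  rw [this, exp_add, exp_int_mul_two_pi_mul_I, mul_one]

theorem norm_chi (k : Fin 4 → ℤ) (x : R4) : ‖chi k x‖ = 1 := by
  have : 2 * Real.pi * I * k 0 * x 1 = ((2 * Real.pi * k 0 * x 1 : ℝ) : ℂ) * I := by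
    push_cast
    ring
  rw [chi, this, norm_exp_ofReal_mul_I]

theorem continuous_chi (k : Fin 4 → ℤ) : Continuous (chi k) := by
  unfold chi
  fun_prop

/-! ## The extension -/

/-- quasi-periodic extension of a function on the cube -/
def ex (g : R4 → ℂ) (x : R4) : ℂ := chi (flo x) (fra x) * g (fra x)

theorem ex_of_mem (g : R4 → ℂ) {x : R4} (hx : x ∈ Q4) : ex g x = g x := by
  rw [ex, flo_of_mem hx, fra_of_mem hx, chi_zero, one_mul]

theorem ex_tr (g : R4 → ℂ) (k : Fin 4 → ℤ) (x : R4) : ex g (tr k x) = chi k x * ex g x := by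
  have h : chi k (fra x) = chi k x := by
    conv_rhs => rw [← tr_flo_fra x]
    rw [chi_tr]
  rw [ex, flo_tr, fra_tr, chi_add, ex, h]
  ring

theorem ex_QS (g : R4 → ℂ) : QS (ex g) := fun k x => by
  rw [smul_eq_mul, ex_tr]
  rfl

theorem ex_of_per {φ : R4 → ℂ} (h : ∀ (k : Fin 4 → ℤ) x, φ (tr k x) = chi k x * φ x) :
    ex φ = φ := by
  funext x
  conv_rhs => rw [← tr_flo_fra x]
  rw [h]
  rfl

theorem mp_Qk (k : Fin 4 → ℤ) :
    MeasurePreserving (tr k) (volume.restrict Q4) (volume.restrict (Qk k)) := by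
  have := (mp_tr k).restrict_preimage_emb (me_tr k) (Qk k)
  rwa [preimage_Qk] at this

theorem restrict_Q4 : (volume.restrict Q4 : Measure R4) = mQ := Measure.restrict_congr_set Q4_ae

theorem ae_of_Qk {P : R4 → Prop} (h : ∀ k, ∀ᵐ x ∂(volume.restrict Q4), P (tr k x)) :
    ∀ᵐ x, P x := by
  have hU : (⋃ k, Qk k) = univ := by
    rw [eq_univ_iff_forall]
    intro x
    rw [mem_iUnion]
    exact ⟨flo x, fun i => ⟨Int.floor_le _, Int.lt_floor_add_one _⟩⟩
  rw [← Measure.restrict_univ (μ := (volume : Measure R4)), ← hU, ae_restrict_iUnion_iff]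
  intro k
  rw [← (mp_Qk k).map_eq, (me_tr k).ae_map_iff]
  exact h k

theorem ex_congr {f g : R4 → ℂ} (h : f =ᵐ[mQ] g) : ex f =ᵐ[volume] ex g := by
  refine ae_of_Qk fun k => ?_
  rw [← restrict_Q4] at h
  filter_upwards [h, ae_restrict_mem measurableSet_Q4] with x hx hQ
  rw [ex_tr, ex_tr, ex_of_mem _ hQ, ex_of_mem _ hQ, hx]

theorem ae_mem_Q4 : ∀ᵐ x ∂mQ, x ∈ Q4 := by
  rw [← restrict_Q4]
  exact ae_restrict_mem measurableSet_Q4

theorem ex_rep (w : H) : Rep w (ex w) := by
  filter_upwards [ae_mem_Q4] with x hQ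
  rw [ex_of_mem _ hQ]

theorem ex_rep_of {w : H} {φ : R4 → ℂ} (hr : Rep w φ)
    (h : ∀ (k : Fin 4 → ℤ) x, φ (tr k x) = chi k x * φ x) : ex w =ᵐ[volume] φ := by
  have := ex_congr hr
  rwa [ex_of_per h] at this

/-- `ex g` on a cell -/
theorem ex_comp_ae (g : R4 → ℂ) (k : Fin 4 → ℤ) :
    (ex g ∘ tr k) =ᵐ[mQ] fun x => chi k x * g x := by
  rw [← restrict_Q4]
  filter_upwards [ae_restrict_mem measurableSet_Q4] with x hQ
  rw [Function.comp_apply, ex_tr, ex_of_mem _ hQ]

theorem memLp_Qk {g : R4 → ℂ} (hg : MemLp g 2 mQ) (k : Fin 4 → ℤ) :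
    MemLp (ex g) 2 (volume.restrict (Qk k)) := by
  rw [← (mp_Qk k).map_eq, (me_tr k).memLp_map_measure_iff, restrict_Q4,
    memLp_congr_ae (ex_comp_ae g k)]
  refine hg.of_le_mul (c := 1) ((continuous_chi k).aestronglyMeasurable.mul hg.1) ?_
  refine Eventually.of_forall fun x => ?_
  rw [norm_mul, norm_chi]

theorem ex_aesm {g : R4 → ℂ} (hg : MemLp g 2 mQ) : AEStronglyMeasurable (ex g) volume := by
  have hU : (⋃ k, Qk k) = univ := by
    rw [eq_univ_iff_forall]
    intro x
    rw [mem_iUnion]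
    exact ⟨flo x, fun i => ⟨Int.floor_le _, Int.lt_floor_add_one _⟩⟩
  rw [← Measure.restrict_univ (μ := (volume : Measure R4)), ← hU, aestronglyMeasurable_iUnion_iff]
  exact fun k => (memLp_Qk hg k).1

theorem exists_ball {K : Set R4} (hK : IsCompact K) : ∃ N : ℕ, K ⊆ closedBall (0 : R4) N := by
  obtain ⟨r, hr⟩ := hK.isBounded.subset_closedBall (0 : R4)
  obtain ⟨N, hN⟩ := exists_nat_ge r
  exact ⟨N, hr.trans (closedBall_subset_closedBall hN)⟩

theorem ex_LocL2 {g : R4 → ℂ} (hg : MemLp g 2 mQ) : LocL2 (ex g) := by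
  intro K hK
  obtain ⟨N, hN⟩ := exists_ball hK
  have hm : AEStronglyMeasurable (ex g) (volume.restrict K) := (ex_aesm hg).restrict
  rw [memLp_two_iff_integrable_sq_norm hm]
  have h1 : IntegrableOn (fun x => ‖ex g x‖ ^ 2) (⋃ k ∈ FN N, Qk k) := by
    rw [integrableOn_finset_iUnion]
    intro k _
    exact (memLp_two_iff_integrable_sq_norm (memLp_Qk hg k).1).1 (memLp_Qk hg k)
  exact h1.mono_set (hN.trans (ball_subset_Qk N))

/-- products with continuous functions of compact support are integrable -/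
theorem integrable_mul_ex {ζ : R4 → ℂ} (hζ : Continuous ζ) (hc : HasCompactSupport ζ) {g : R4 → ℂ}
    (hg : MemLp g 2 mQ) : Integrable (fun x => ζ x * ex g x) := by
  have h1 : MemLp (ex g) 2 (volume.restrict (tsupport ζ)) := ex_LocL2 hg _ hc
  have h2 : MemLp ζ 2 (volume.restrict (tsupport ζ)) :=
    (hζ.memLp_of_hasCompactSupport hc).restrict _
  have h3 : IntegrableOn (fun x => ζ x * ex g x) (tsupport ζ) := h2.integrable_mul h1
  rwa [integrableOn_iff_integrable_of_support_subset] at h3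
  intro x hx
  by_contra hx'
  apply hx
  change ζ x * ex g x = 0
  rw [image_eq_zero_of_notMem_tsupport hx', zero_mul]

/-- unfolding -/
theorem unfold_C {h : R4 → ℂ} {N : ℕ} (hN : ∀ x ∉ closedBall (0 : R4) N, h x = 0)
    (hi : Integrable h) :
    ∫ x, h x = ∑ k ∈ FN N, ∫ x, h (tr k x) ∂mQ := by
  have h1 : ∫ x, h x = ∫ x in ⋃ k ∈ FN N, Qk k, h x := by
    rw [setIntegral_eq_integral_of_forall_compl_eq_zero]
    intro x hx
    exact hN x fun hx' => hx (ball_subset_Qk N hx')
  rw [h1, integral_biUnion_finset _ (fun k _ => measurableSet_Qk k)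
    (fun k _ l _ hkl => Qk_disj hkl) (fun k _ => hi.integrableOn)]
  refine Finset.sum_congr rfl fun k _ => ?_
  rw [← restrict_Q4, ← (mp_Qk k).map_eq, (me_tr k).integral_map]

/-- the linear functional `g ↦ ∫ ζ (ex g)` is continuous on `L²` of the cube -/
theorem continuous_pair {ζ : R4 → ℂ} (hζ : Continuous ζ) (hc : HasCompactSupport ζ) :
    Continuous fun g : H => ∫ x, ζ x * ex g x := by
  obtain ⟨N, hN⟩ := exists_ball hc
  have h0 : ∀ g : H, ∫ x, ζ x * ex g x = ∑ k ∈ FN N, ∫ x, ζ (tr k x) * (chi k x * g x) ∂mQ := by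
    intro g
    rw [unfold_C (N := N) ?_ (integrable_mul_ex hζ hc (Lp.memLp g))]
    · refine Finset.sum_congr rfl fun k _ => ?_
      refine integral_congr_ae ?_
      filter_upwards [ex_comp_ae g k] with x hx
      rw [Function.comp_apply] at hx
      rw [hx]
    · intro x hx
      have : x ∉ tsupport ζ := fun h => hx (hN h)
      rw [image_eq_zero_of_notMem_tsupport this, zero_mul]
  simp only [h0]
  refine continuous_finset_sum _ fun k _ => ?_
  set Z : R4 → ℂ := fun x => (starRingEnd ℂ) (ζ (tr k x) * chi k x) with hZ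
  have htr : Continuous (tr k) := by
    refine continuous_pi fun i => ?_
    exact (continuous_apply i).add continuous_const
  have hZc : Continuous Z := by
    exact Complex.continuous_conj.comp ((hζ.comp htr).mul (continuous_chi k))
  obtain ⟨C, hC⟩ := (isCompact_Icc (a := (0 : R4)) (b := 1)).exists_bound_of_continuousOn
    hZc.continuousOn
  haveI : IsFiniteMeasure (mQ : Measure R4) :=
    ⟨by rw [Measure.restrict_apply_univ]; exact isCompact_Icc.measure_lt_top⟩
  have hZb : ∀ᵐ x ∂mQ, ‖Z x‖ ≤ C := by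
    rw [ae_restrict_iff' measurableSet_Icc]
    exact Eventually.of_forall fun x hx => hC x hx
  have hZm : MemLp Z 2 mQ := MemLp.of_bound hZc.aestronglyMeasurable C hZb
  have h1 : ∀ g : H, ∫ x, ζ (tr k x) * (chi k x * g x) ∂mQ = inner ℂ (hZm.toLp Z) g := by
    intro g
    rw [L2.inner_def]
    refine integral_congr_ae ?_
    filter_upwards [hZm.coeFn_toLp] with x hx
    rw [hx]
    simp only [hZ, RCLike.inner_apply, Complex.conj_conj]
    ring
  simp only [h1]
  exact continuous_const.inner continuous_id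

/-! ## The theorem -/

theorem EXT : Vale.Agent.P247.H931.S1.EXT_statement := by
  intro J G hF ξ w
  refine ⟨ex (J ξ w), fun j => ex (G ξ j w), ex_rep _, fun j => ex_rep _, ex_QS _,
    fun j => ex_QS _, ex_LocL2 (Lp.memLp _), fun j => ex_LocL2 (Lp.memLp _), fun j η hη hc => ?_⟩
  -- both sides are continuous in `w`
  have hηc : Continuous η := hη.continuous
  have hη' : ContDiff ℝ ∞ fun x => fderiv ℝ η x (e j) := contDiff_fderiv_apply hη _
  have hc' : HasCompactSupport fun x => fderiv ℝ η x (e j) := hc.fderiv_apply (𝕜 := ℝ) (e j)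
  have hA : Continuous fun x => (A0 ξ x (e j) : ℂ) := by
    have := (contDiff_A0C ξ j).continuous
    simpa only [A0_e] using this
  set ζ₁ : R4 → ℂ := fun x => ((fderiv ℝ η x (e j) : ℝ) : ℂ) with hζ₁
  set ζ₂ : R4 → ℂ := fun x => ((η x : ℝ) : ℂ) with hζ₂
  set ζ₃ : R4 → ℂ := fun x => ((η x : ℝ) : ℂ) * (I * (A0 ξ x (e j) : ℂ)) with hζ₃
  have c1 : Continuous ζ₁ := Complex.continuous_ofReal.comp hη'.continuous
  have c2 : Continuous ζ₂ := Complex.continuous_ofReal.comp hηc
  have c3 : Continuous ζ₃ := c2.mul (continuous_const.mul hA)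
  have s1 : HasCompactSupport ζ₁ := hc'.comp_left Complex.ofReal_zero
  have s2 : HasCompactSupport ζ₂ := hc.comp_left Complex.ofReal_zero
  have s3 : HasCompactSupport ζ₃ := s2.mul_right
  have hL : ∀ w : H, ∫ x, fderiv ℝ η x (e j) • ex (J ξ w) x = ∫ x, ζ₁ x * ex (J ξ w) x := by
    intro w
    refine integral_congr_ae (Eventually.of_forall fun x => ?_)
    simp only [hζ₁, Complex.real_smul]
  have hR : ∀ w : H, ∫ x, η x • (ex (G ξ j w) x + I * (A0 ξ x (e j) : ℂ) * ex (J ξ w) x) =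
      (∫ x, ζ₂ x * ex (G ξ j w) x) + ∫ x, ζ₃ x * ex (J ξ w) x := by
    intro w
    rw [← integral_add (integrable_mul_ex c2 s2 (Lp.memLp _))
      (integrable_mul_ex c3 s3 (Lp.memLp _))]
    refine integral_congr_ae (Eventually.of_forall fun x => ?_)
    simp only [hζ₂, hζ₃, Complex.real_smul]
    ring
  have hcl : IsClosed {w : H | ∫ x, fderiv ℝ η x (e j) • ex (J ξ w) x =
      -∫ x, η x • (ex (G ξ j w) x + I * (A0 ξ x (e j) : ℂ) * ex (J ξ w) x)} := by
    simp only [hL, hR]
    refine isClosed_eq ((continuous_pair c1 s1).comp (J ξ).continuous) ?_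
    exact (((continuous_pair c2 s2).comp (G ξ j).continuous).add
      ((continuous_pair c3 s3).comp (J ξ).continuous)).neg
  refine hcl.closure_subset_iff.2 ?_ (hF.dense ξ w)
  rintro w ⟨φ, hφ, h1, h2⟩
  rw [mem_ofPred_eq]
  have e1 : ex (J ξ w) =ᵐ[volume] φ := ex_rep_of h1 hφ.per
  have e2 : ex (G ξ j w) =ᵐ[volume] nb ξ j φ := ex_rep_of (h2 j) (hφ.nb ξ j).per
  have r1 : ∫ x, fderiv ℝ η x (e j) • ex (J ξ w) x = ∫ x, fderiv ℝ η x (e j) • φ x := by
    refine integral_congr_ae ?_
    filter_upwards [e1] with x hx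
    rw [hx]
  have r2 : ∫ x, η x • (ex (G ξ j w) x + I * (A0 ξ x (e j) : ℂ) * ex (J ξ w) x) =
      ∫ x, η x • fderiv ℝ φ x (e j) := by
    refine integral_congr_ae ?_
    filter_upwards [e1, e2] with x hx hx'
    rw [hx, hx', nb_eq, A0_e]
    congr 1
    ring
  rw [r1, r2, ← neg_eq_iff_eq_neg]
  have hφc : Continuous φ := hφ.smooth.continuous
  have hφ' : Continuous fun x => fderiv ℝ φ x (e j) :=
    (contDiff_fderiv_apply hφ.smooth _).continuous
  refine (integral_smul_fderiv_eq_neg_fderiv_smul_of_integrable (𝕜 := ℝ) (f := η) (g := φ)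
    (v := e j) (μ := volume) ?_ ?_ ?_ ?_ ?_).symm
  · exact (hη'.continuous.smul hφc).integrable_of_hasCompactSupport hc'.smul_right
  · exact (hηc.smul hφ').integrable_of_hasCompactSupport hc.smul_right
  · exact (hηc.smul hφc).integrable_of_hasCompactSupport hc.smul_right
  · exact fun x _ => (hη.differentiable (by simp)) x
  · exact fun x _ => (hφ.smooth.differentiable (by simp)) x

end Vale.Agent.P247.H520
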