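import Vale.Agent.P247.H520.Exp
import Vale.Agent.P247.H58.LW.Sta
import Vale.Agent.P247.H74.CE.OmL

/-! # P247, layer C, `TRV`: transversal directions -/

open scoped ContDiff Topology
open Set Filter Metric Asymptotics Vale.Agent.P247.H74 Vale.Agent.P247.H94 Vale.Agent.P247.H574
open Vale.Agent.P247.H58.LW

noncomputable section

namespace Vale.Agent.P247.H520

open CE (OmL OmL_apply OmL_smooth exists_frame cm_Om)

/-- finitely many complex lines do not cover -/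
theorem exists_off (D : Data) (x : R4) {N : ℕ} (a : Fin N → R4) (ha : ∀ l, a l ≠ 0) :
    ∃ b : R4, ∀ l, Om D x (a l) b ≠ 0 := by
  by_contra hcon
  push Not at hcon
  let p : Fin N → Subspace ℝ R4 := fun l => LinearMap.ker ((OmL D x (a l)) : R4 →ₗ[ℝ] ℂ)
  have h1 : ⋃ l, (p l : Set R4) = univ := by
    rw [eq_univ_iff_forall]
    intro b
    obtain ⟨l, hl⟩ := hcon b
    rw [mem_iUnion]
    refine ⟨l, ?_⟩
    change OmL D x (a l) b = 0
    rw [OmL_apply, hl]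
  obtain ⟨l, hl⟩ := Subspace.exists_eq_top_of_iUnion_eq_univ h1
  obtain ⟨b, hb⟩ := exists_frame D x (a l) (ha l)
  apply hb
  have : b ∈ p l := by rw [hl]; trivial
  rw [← OmL_apply]
  exact this

/-- `Om (a, b) ≠ 0` for the tangent `a` of a disc: `b` is transversal -/
theorem trans_of_exp {D : Data} {x : R4} {u : ℂ → R4} {k : ℕ} {a b : R4} (hk : 1 ≤ k)
    {C : ℝ} (hC : 0 < C)
    (h : ∀ᶠ z in 𝓝 (0 : ℂ), ‖fderiv ℝ u z 1 - cm D x (k * z ^ (k - 1)) a‖ ≤ C * ‖z‖ ^ k)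
    (hb : Om D x a b ≠ 0) : Trans D x u b := by
  set m := ‖Om D x a b‖ with hm
  have hm0 : 0 < m := norm_pos_iff.2 hb
  set M := ‖cmL D x a‖ with hM
  have hM0 : 0 ≤ M := norm_nonneg _
  have ht2 : Tendsto (fun z : ℂ => ‖OmL D x‖ * (C * ‖z‖) * ‖b‖) (𝓝 0) (𝓝 0) := by
    have : Continuous (fun z : ℂ => ‖OmL D x‖ * (C * ‖z‖) * ‖b‖) := by fun_prop
    simpa using this.tendsto 0
  have hn1 : ∀ᶠ z in 𝓝 (0 : ℂ), ‖z‖ < 1 := by
    filter_upwards [ball_mem_nhds (0 : ℂ) one_pos] with z hz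
    simpa using hz
  refine ⟨m / (2 * (M + C)), by positivity, ?_⟩
  filter_upwards [nhdsWithin_le_nhds h, nhdsWithin_le_nhds hn1,
    nhdsWithin_le_nhds (ht2.eventually (gt_mem_nhds (show 0 < m / 2 by positivity))),
    self_mem_nhdsWithin] with z h1 h2 h4 hz0
  have hz0' : 0 < ‖z‖ := norm_pos_iff.2 hz0
  set ζ : ℂ := k * z ^ (k - 1) with hζ
  have hζn : ‖z‖ ^ (k - 1) ≤ ‖ζ‖ := by
    rw [hζ, norm_mul, norm_pow, Complex.norm_natCast]
    have : (1 : ℝ) ≤ k := by exact_mod_cast hk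
    have h5 : 0 ≤ ‖z‖ ^ (k - 1) := by positivity
    nlinarith
  have hζz : ‖z‖ ^ k ≤ ‖z‖ * ‖ζ‖ := by
    obtain ⟨j, rfl⟩ : ∃ j, k = j + 1 := ⟨k - 1, by omega⟩
    rw [pow_succ, mul_comm]
    simp only [Nat.add_sub_cancel] at hζn
    gcongr
  set p := fderiv ℝ u z 1 with hp
  have hcm : ‖cm D x ζ a‖ ≤ M * ‖ζ‖ := (cmL D x a).le_opNorm ζ
  have hE : ‖p - cm D x ζ a‖ ≤ C * ‖z‖ * ‖ζ‖ := by
    refine h1.trans ?_
    rw [mul_assoc]
    gcongr
  have hpn : ‖p‖ ≤ (M + C) * ‖ζ‖ := by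
    have : p = cm D x ζ a + (p - cm D x ζ a) := by abel
    rw [this]
    refine (norm_add_le _ _).trans ?_
    have h5 : C * ‖z‖ * ‖ζ‖ ≤ C * 1 * ‖ζ‖ := by gcongr
    rw [mul_one] at h5
    linarith
  have hdec : Om D x p b = ζ * Om D x a b + OmL D x (p - cm D x ζ a) b := by
    rw [← cm_Om, ← OmL_apply, ← OmL_apply, map_sub]
    simp only [_root_.sub_apply]
    abel
  have e1 : ‖OmL D x (p - cm D x ζ a) b‖ ≤ m / 2 * ‖ζ‖ := by
    calc ‖OmL D x (p - cm D x ζ a) b‖ ≤ ‖OmL D x‖ * ‖p - cm D x ζ a‖ * ‖b‖ :=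
          (OmL D x).le_opNorm₂ _ _
      _ ≤ ‖OmL D x‖ * (C * ‖z‖ * ‖ζ‖) * ‖b‖ := by gcongr
      _ = (‖OmL D x‖ * (C * ‖z‖) * ‖b‖) * ‖ζ‖ := by ring
      _ ≤ m / 2 * ‖ζ‖ := by gcongr
  have e3 : ‖ζ‖ * m ≤ ‖Om D x p b‖ + m / 2 * ‖ζ‖ := by
    have : ζ * Om D x a b = Om D x p b - OmL D x (p - cm D x ζ a) b := by rw [hdec]; ring
    have h5 : ‖ζ * Om D x a b‖ = ‖ζ‖ * m := norm_mul _ _
    rw [← h5, this]
    have := norm_sub_le (Om D x p b) (OmL D x (p - cm D x ζ a) b)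
    linarith
  calc m / (2 * (M + C)) * ‖p‖ ≤ m / (2 * (M + C)) * ((M + C) * ‖ζ‖) := by gcongr
    _ = m / 2 * ‖ζ‖ := by
      have : M + C ≠ 0 := by positivity
      field_simp
    _ ≤ ‖Om D x p b‖ := by linarith

/-- `TRV` -/
theorem TRV : TRV_statement := by
  intro D K x N u ε hB
  choose k a hk ha C hC h using fun l => disc_exp (hB.disc l) (hB.imm l)
  obtain ⟨b, hb⟩ := exists_off D x a ha
  refine ⟨b, fun l => trans_of_exp (hk l) (hC l) ?_ (hb l)⟩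
  filter_upwards [h l] with z hz
  have := hz.2 1
  rw [hB.zero l] at this
  simpa using this

end Vale.Agent.P247.H520
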