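import Vale.Agent.P247.H58.LW.Sta
import Vale.Agent.P247.H74.CE.Lc

/-!
# P247, stage 2, LW: conversions of winding numbers
-/

open scoped ContDiff Topology
open Set MeasureTheory Filter Metric Asymptotics
open Polynomial (nthRootsFinset)

noncomputable section

namespace Vale.Agent.P247.H520.Wc

open Vale.Agent.P247.H74 Vale.Agent.P247.H74.CE Vale.Agent.P247.H574 Vale.Agent.P247.H58.LW

/-- a function with a winding number is continuous on the circle -/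
theorem HasWinding.cont {f : ℂ → ℂ} {c : ℂ} {r : ℝ} {m : ℤ} (hr : 0 < r) (h : HasWinding f c r m) :
    ContinuousOn f (sphere c r) := by
  obtain ⟨g, h1, h2⟩ := h
  have h3 : ContinuousOn (fun z => (z - c) ^ m * Complex.exp (g z)) (sphere c r) := by
    refine ContinuousOn.mul ?_ (Complex.continuous_exp.comp_continuousOn h1)
    exact ContinuousOn.zpow₀ (by fun_prop) m fun z hz => Or.inl (WWIND.sub_ne hr hz)
  exact h3.congr h2

/-- leading term -/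
theorem wind_exp {n : ℂ → ℂ} {A : ℂ} {m : ℕ} (hA : A ≠ 0)
    (hc : ∀ᶠ z in 𝓝[≠] (0 : ℂ), ContinuousAt n z)
    (ho : (fun z => n z - A * z ^ m) =o[𝓝[≠] (0 : ℂ)] fun z => z ^ m) :
    ∀ᶠ r in 𝓝[>] (0 : ℝ), HasWinding n 0 r m := by
  refine WWIND.W6 n 0 A m hA hc ?_
  simpa using ho

/-- small perturbations -/
theorem wind_pert {n g : ℂ → ℂ} {c : ℂ} {r : ℝ} {m : ℤ} (hr : 0 < r) (h : HasWinding n c r m)
    (hg : ContinuousOn g (sphere c r)) :
    ∀ᶠ δ : ℝ in 𝓝 (0 : ℝ), HasWinding (fun t => n t + (δ : ℂ) * g t) c r m := by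
  have hn := HasWinding.cont hr h
  have hcs : IsCompact (sphere c r) := isCompact_sphere c r
  obtain ⟨G, hG⟩ := hcs.exists_bound_of_continuousOn hg
  have hne : (sphere c r).Nonempty := (NormedSpace.sphere_nonempty (E := ℂ)).2 hr.le
  obtain ⟨z₀, hz₀, hmin⟩ := hcs.exists_isMinOn hne hn.norm
  have h0 : 0 < ‖n z₀‖ := norm_pos_iff.2 (wind_ne hr h hz₀)
  have hG0 : 0 ≤ G := (norm_nonneg _).trans (hG z₀ hz₀)
  have h1 : ∀ᶠ δ in 𝓝 (0 : ℝ), |δ| * G < ‖n z₀‖ := by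
    have : Tendsto (fun δ : ℝ => |δ| * G) (𝓝 0) (𝓝 (|(0 : ℝ)| * G)) := by
      exact ((continuous_abs.tendsto 0).mul_const G)
    rw [abs_zero, zero_mul] at this
    exact this.eventually (gt_mem_nhds h0)
  filter_upwards [h1] with δ hδ
  refine WWIND.W5 n _ c r m hr hn (hn.add (continuousOn_const.mul hg)) (fun z hz => ?_) h
  rw [add_sub_cancel_left, norm_mul, Complex.norm_real, Real.norm_eq_abs]
  calc |δ| * ‖g z‖ ≤ |δ| * G := mul_le_mul_of_nonneg_left (hG z hz) (abs_nonneg _)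
    _ < ‖n z₀‖ := hδ
    _ ≤ ‖n z‖ := hmin hz

/-- for finite families -/
theorem wind_pert_fin {ι : Type*} (s : Finset ι) {n g : ι → ℂ → ℂ} {c : ℂ} {r : ℝ} {m : ι → ℤ}
    (hr : 0 < r) (h : ∀ i ∈ s, HasWinding (n i) c r (m i))
    (hg : ∀ i ∈ s, ContinuousOn (g i) (sphere c r)) :
    ∀ᶠ δ : ℝ in 𝓝 (0 : ℝ), ∀ i ∈ s, HasWinding (fun t => n i t + (δ : ℂ) * g i t) c r (m i) := by
  rw [Filter.eventually_all_finset]
  exact fun i hi => wind_pert hr (h i hi) (hg i hi)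

theorem tendsto_norm_sub_zero {X G : Type*} [TopologicalSpace X] [NormedAddCommGroup G]
    {F : X → G} (hF : Continuous F) (x : X) : Tendsto (fun t => ‖F t - F x‖) (𝓝 x) (𝓝 0) := by
  have h3 := ((hF.tendsto x).sub_const (F x)).norm
  simpa using h3

/-- the leading behaviour of the transversal component -/
theorem Om_lead {D : Data} {u : ℂ → R4} {x a b : R4} {k : ℕ} (h0 : u 0 = x)
    (hc : ContinuousAt u 0) (hab : Om D x a b ≠ 0) {C : ℝ}
    (hd : ∀ᶠ z in 𝓝 (0 : ℂ), ‖fderiv ℝ u z 1 - cm D x (k * z ^ (k - 1)) a‖ ≤ C * ‖z‖ ^ k)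
    (hk : 1 ≤ k) {η : ℝ} (hη : 0 < η) :
    ∀ᶠ t in 𝓝 (0 : ℂ), ∀ c : ℂ,
      ‖Om D (u t) (fderiv ℝ u t 1) (cm D x c b) - c * (k * t ^ (k - 1) * Om D x a b)‖ ≤
        η * (‖c‖ * ‖t‖ ^ (k - 1)) := by
  have hC0 : 0 ≤ max C 0 := le_max_right _ _
  set MB : ℝ := ‖cmB D x‖ * ‖b‖ with hMB
  have hMB0 : 0 ≤ MB := by positivity
  set P : ℝ := k * (‖cmB D x‖ * ‖a‖) + max C 0 with hP
  have hP0 : 0 ≤ P := by positivity
  -- `OmL` is continuous
  have e1 : Tendsto (fun t => ‖OmL D (u t) - OmL D x‖) (𝓝 (0 : ℂ)) (𝓝 0) := by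
    have h1 := (tendsto_norm_sub_zero (OmL_smooth D).continuous (u 0)).comp hc
    rwa [h0] at h1
  have e2 : Tendsto (fun t : ℂ => ‖OmL D (u t) - OmL D x‖ * P * MB +
      ‖OmL D x‖ * (max C 0 * ‖t‖) * MB) (𝓝 (0 : ℂ)) (𝓝 0) := by
    have h1 : Tendsto (fun t : ℂ => ‖t‖) (𝓝 (0 : ℂ)) (𝓝 0) := by
      have := (continuous_norm (E := ℂ)).tendsto 0
      rwa [norm_zero] at this
    have := ((e1.mul_const P).mul_const MB).add
      (((h1.const_mul (max C 0)).const_mul ‖OmL D x‖).mul_const MB)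
    simpa using this
  have e3 := e2.eventually (gt_mem_nhds hη)
  have e4 : ∀ᶠ t in 𝓝 (0 : ℂ), ‖t‖ ≤ 1 := by
    filter_upwards [closedBall_mem_nhds (0 : ℂ) one_pos] with t ht
    simpa using ht
  filter_upwards [hd, e3, e4] with t h1 h2 h3 c
  set p := fderiv ℝ u t 1 with hp
  set p' := cm D x (k * t ^ (k - 1)) a with hp'
  have hpow : ‖t‖ ^ k = ‖t‖ ^ (k - 1) * ‖t‖ := by
    rw [← pow_succ, Nat.sub_add_cancel hk]
  have hk0 : (0 : ℝ) ≤ ‖t‖ ^ (k - 1) := by positivity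
  have h4 : ‖p - p'‖ ≤ max C 0 * (‖t‖ ^ (k - 1) * ‖t‖) := by
    rw [← hpow]
    exact h1.trans (mul_le_mul_of_nonneg_right (le_max_left _ _) (by positivity))
  have h5 : ‖p'‖ ≤ k * (‖cmB D x‖ * ‖a‖) * ‖t‖ ^ (k - 1) := by
    rw [hp', ← cmB_apply]
    refine ((cmB D x).le_opNorm₂ _ _).trans (le_of_eq ?_)
    rw [norm_mul, norm_pow, Complex.norm_natCast]
    ring
  have h6 : ‖p‖ ≤ P * ‖t‖ ^ (k - 1) := by
    calc ‖p‖ = ‖p' + (p - p')‖ := by rw [add_sub_cancel]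
      _ ≤ ‖p'‖ + ‖p - p'‖ := norm_add_le _ _
      _ ≤ k * (‖cmB D x‖ * ‖a‖) * ‖t‖ ^ (k - 1) + max C 0 * (‖t‖ ^ (k - 1) * 1) := by
          refine add_le_add h5 (h4.trans ?_)
          exact mul_le_mul_of_nonneg_left (mul_le_mul_of_nonneg_left h3 hk0) hC0
      _ = P * ‖t‖ ^ (k - 1) := by rw [hP]; ring
  have h7 : ‖cm D x c b‖ ≤ MB * ‖c‖ := by
    rw [← cmB_apply]
    refine ((cmB D x).le_opNorm₂ _ _).trans (le_of_eq ?_)
    rw [hMB]; ring
  have h8 : c * (k * t ^ (k - 1) * Om D x a b) = OmL D x p' (cm D x c b) := by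
    rw [OmL_apply, hp', cm_Om, Om_cm]; ring
  have h9 : Om D (u t) p (cm D x c b) - c * (k * t ^ (k - 1) * Om D x a b) =
      (OmL D (u t) - OmL D x) p (cm D x c b) + OmL D x (p - p') (cm D x c b) := by
    rw [h8, ← OmL_apply]
    simp only [sub_apply, map_sub]
    ring
  rw [h9]
  calc ‖(OmL D (u t) - OmL D x) p (cm D x c b) + OmL D x (p - p') (cm D x c b)‖
      ≤ ‖(OmL D (u t) - OmL D x) p (cm D x c b)‖ + ‖OmL D x (p - p') (cm D x c b)‖ :=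
        norm_add_le _ _
    _ ≤ ‖OmL D (u t) - OmL D x‖ * (P * ‖t‖ ^ (k - 1)) * (MB * ‖c‖) +
        ‖OmL D x‖ * (max C 0 * (‖t‖ ^ (k - 1) * ‖t‖)) * (MB * ‖c‖) := by
        refine add_le_add ?_ ?_
        · exact ((OmL D (u t) - OmL D x).le_opNorm₂ _ _).trans
            (mul_le_mul (mul_le_mul_of_nonneg_left h6 (OmL D (u t) - OmL D x).opNorm_nonneg) h7
              (norm_nonneg _)
              (by positivity))
        · exact ((OmL D x).le_opNorm₂ _ _).trans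
            (mul_le_mul (mul_le_mul_of_nonneg_left h4 (OmL D x).opNorm_nonneg) h7 (norm_nonneg _)
              (by positivity))
    _ = (‖OmL D (u t) - OmL D x‖ * P * MB + ‖OmL D x‖ * (max C 0 * ‖t‖) * MB) *
        (‖c‖ * ‖t‖ ^ (k - 1)) := by ring
    _ ≤ η * (‖c‖ * ‖t‖ ^ (k - 1)) := mul_le_mul_of_nonneg_right h2.le (by positivity)

/-- the winding number of the vertical component -/
theorem wind_o {D : Data} {u : ℂ → R4} {x a b : R4} {k : ℕ} (h0 : u 0 = x)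
    (hc : ∀ᶠ z in 𝓝 (0 : ℂ), ContinuousAt u z) (hab : Om D x a b ≠ 0) {C : ℝ}
    (hd : ∀ᶠ z in 𝓝 (0 : ℂ), ‖fderiv ℝ u z 1 - cm D x (k * z ^ (k - 1)) a‖ ≤ C * ‖z‖ ^ k)
    (hk : 1 ≤ k) :
    ∀ᶠ ρ in 𝓝[>] (0 : ℝ), ∀ v : R4 → ℂ, Continuous v → ∀ o : ℤ,
      HasWinding (fun t => Om D (u t) (fderiv ℝ u t 1) (cm D x (v (u t)) b)) 0 ρ o →
      HasWinding (fun t => v (u t)) 0 ρ (o - ((k : ℤ) - 1)) := by
  have hq : 0 < k * ‖Om D x a b‖ / 3 := by
    have : (0 : ℝ) < k := by exact_mod_cast hk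
    have := norm_pos_iff.2 hab
    positivity
  have h1 := Om_lead h0 hc.self_of_nhds hab hd hk hq
  filter_upwards [ev_closedBall h1, ev_closedBall hc, self_mem_nhdsWithin] with ρ h2 h3 hρ v hv o ho
  have hρ : 0 < ρ := hρ
  set f : ℂ → ℂ := fun t => Om D (u t) (fderiv ℝ u t 1) (cm D x (v (u t)) b) with hf
  have hvu : ContinuousOn (fun t => v (u t)) (sphere 0 ρ) := fun t ht =>
    (hv.continuousAt.comp (h3 t (sphere_subset_closedBall ht))).continuousWithinAt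
  have hkc : (k : ℂ) ≠ 0 := by
    have : k ≠ 0 := by omega
    exact_mod_cast this
  set q : ℂ := k * Om D x a b with hq'
  have hq0 : q ≠ 0 := mul_ne_zero hkc hab
  set g : ℂ → ℂ := fun t => v (u t) * (q * t ^ (k - 1)) with hg
  have hgc : ContinuousOn g (sphere 0 ρ) := hvu.mul (by fun_prop)
  have hgw : HasWinding g 0 ρ o := by
    refine WWIND.W5 f g 0 ρ o hρ (HasWinding.cont hρ ho) hgc (fun t ht => ?_) ho
    have hfne := wind_ne hρ ho ht
    have ht0 : t ≠ 0 := by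
      have := WWIND.sub_ne hρ ht
      simpa using this
    have e1 := h2 t (sphere_subset_closedBall ht) (v (u t))
    have e2 : v (u t) * (k * t ^ (k - 1) * Om D x a b) = g t := by
      simp only [hg, hq']; ring
    rw [e2] at e1
    have e3 : k * ‖Om D x a b‖ / 3 * (‖v (u t)‖ * ‖t‖ ^ (k - 1)) = ‖g t‖ / 3 := by
      simp only [hg, hq', norm_mul, norm_pow, Complex.norm_natCast]; ring
    rw [e3] at e1
    have e4 : ‖g t‖ ≤ ‖f t‖ + ‖f t - g t‖ := by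
      have := norm_sub_le (f t) (f t - g t)
      rwa [sub_sub_cancel] at this
    have e5 : 0 < ‖f t‖ := norm_pos_iff.2 hfne
    rw [norm_sub_rev]
    change ‖f t - g t‖ ≤ ‖g t‖ / 3 at e1
    nlinarith [norm_nonneg (g t)]
  have h4 : HasWinding (fun z : ℂ => q⁻¹ * (z - 0) ^ (-((k : ℤ) - 1))) 0 ρ (-((k : ℤ) - 1)) :=
    WWIND.hasWinding_zpow (inv_ne_zero hq0) _
  have h5 := WWIND.W2 _ _ 0 ρ _ _ hρ hgw h4
  rw [← sub_eq_add_neg] at h5
  refine wind_congr h5 fun t ht => ?_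
  have ht0 : t ≠ 0 := by
    have := WWIND.sub_ne hρ ht
    simpa using this
  have e1 : (t - 0) ^ (-((k : ℤ) - 1)) = (t ^ (k - 1))⁻¹ := by
    rw [sub_zero, zpow_neg]
    congr 1
    have : ((k : ℤ) - 1) = ((k - 1 : ℕ) : ℤ) := by omega
    rw [this, zpow_natCast]
  simp only [hg, e1]
  have := pow_ne_zero (k - 1) ht0
  field_simp

/-! ## sums over the roots of unity and the final numbers -/

theorem one_mem_roots {K : ℕ} (hK : 0 < K) : (1 : ℂ) ∈ nthRootsFinset K (1 : ℂ) := by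
  rw [Polynomial.mem_nthRootsFinset hK]; simp

/-- one root is special -/
theorem roots_sum {K : ℕ} (hK : 0 < K) (m : ℂ → ℤ) (c : ℤ)
    (h : ∀ w ∈ nthRootsFinset K (1 : ℂ), w ≠ 1 → c ≤ m w) :
    m 1 + ((K : ℤ) - 1) * c ≤ ∑ w ∈ nthRootsFinset K (1 : ℂ), m w := by
  classical
  rw [← Finset.add_sum_erase _ _ (one_mem_roots hK)]
  have h1 : ((nthRootsFinset K (1 : ℂ)).erase 1).card = K - 1 := card_roots hK.ne'
  have h2 : ((nthRootsFinset K (1 : ℂ)).erase 1).card • c ≤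
      ∑ w ∈ (nthRootsFinset K (1 : ℂ)).erase 1, m w :=
    Finset.card_nsmul_le_sum _ _ _ fun w hw => h w (Finset.mem_of_mem_erase hw)
      (Finset.ne_of_mem_erase hw)
  rw [h1] at h2
  have h3 : (K - 1) • c = ((K : ℤ) - 1) * c := by
    rw [nsmul_eq_mul]
    congr 1
    omega
  rw [h3] at h2
  linarith

/-- no special root -/
theorem roots_sum' {K : ℕ} (hK : 0 < K) (m : ℂ → ℤ) (c : ℤ)
    (h : ∀ w ∈ nthRootsFinset K (1 : ℂ), c ≤ m w) :
    (K : ℤ) * c ≤ ∑ w ∈ nthRootsFinset K (1 : ℂ), m w := by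
  have h1 := roots_sum hK m c fun w hw _ => h w hw
  have h2 := h 1 (one_mem_roots hK)
  linarith

/-- the final numbers: `Nu l j` is the local intersection number of the branches `l`, `j` -/
theorem numbers {N : ℕ} (hN : 0 < N) (μ : Fin N → ℕ) (hμ : ∀ l, 1 ≤ μ l) (k : Fin N → ℕ)
    (hk : ∀ l, 1 ≤ k l) (o : Fin N → ℤ) (ho : ∀ l, 0 ≤ o l) (Nu : Fin N → Fin N → ℝ)
    (h1 : ∀ l, (o l : ℝ) + ((k l : ℝ) - 1) ^ 2 ≤ Nu l l) (h2 : ∀ l j, l ≠ j → 0 < Nu l j) :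
    0 ≤ ∑ l, ∑ j, (μ l : ℝ) * (μ j : ℝ) * Nu l j ∧
    (∑ l, ∑ j, (μ l : ℝ) * (μ j : ℝ) * Nu l j = 0 → N = 1 ∧ (∀ l, k l = 1) ∧ ∀ l, o l = 0) := by
  have hμ0 : ∀ l, (0 : ℝ) < μ l := fun l => by exact_mod_cast hμ l
  have ho0 : ∀ l, (0 : ℝ) ≤ o l := fun l => by exact_mod_cast ho l
  have hn : ∀ l j, 0 ≤ Nu l j := by
    intro l j
    by_cases hlj : l = j
    · subst hlj
      have := h1 l
      nlinarith [ho0 l, sq_nonneg ((k l : ℝ) - 1)]
    · exact (h2 l j hlj).le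
  have hn' : ∀ l j, 0 ≤ (μ l : ℝ) * (μ j : ℝ) * Nu l j := fun l j =>
    mul_nonneg (mul_pos (hμ0 l) (hμ0 j)).le (hn l j)
  refine ⟨Finset.sum_nonneg fun l _ => Finset.sum_nonneg fun j _ => hn' l j, fun h0 => ?_⟩
  have h3 : ∀ l j, Nu l j = 0 := by
    intro l j
    have e1 := (Finset.sum_eq_zero_iff_of_nonneg fun l _ =>
      Finset.sum_nonneg fun j _ => hn' l j).1 h0 l (Finset.mem_univ l)
    have e2 := (Finset.sum_eq_zero_iff_of_nonneg fun j _ => hn' l j).1 e1 j (Finset.mem_univ j)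
    rcases mul_eq_zero.1 e2 with h | h
    · exact absurd h (mul_pos (hμ0 l) (hμ0 j)).ne'
    · exact h
  have h4 : ∀ l, (o l : ℝ) = 0 ∧ ((k l : ℝ) - 1) ^ 2 = 0 := by
    intro l
    have e1 := h1 l
    rw [h3 l l] at e1
    have e2 := ho0 l
    have e3 := sq_nonneg ((k l : ℝ) - 1)
    constructor <;> linarith
  refine ⟨?_, fun l => ?_, fun l => by exact_mod_cast (h4 l).1⟩
  · by_contra hne
    have hN2 : 1 < N := by omega
    have := h2 ⟨0, hN⟩ ⟨1, hN2⟩ (by simp)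
    rw [h3] at this
    exact lt_irrefl _ this
  · have e1 := (h4 l).2
    have e2 : (k l : ℝ) - 1 = 0 := by
      exact pow_eq_zero_iff (two_ne_zero) |>.1 e1
    have e3 : (k l : ℝ) = 1 := by linarith
    exact_mod_cast e3

/-- order one means immersed -/
theorem imm_of_one {D : Data} {u : ℂ → R4} {x a b : R4} (hab : Om D x a b ≠ 0) {C : ℝ}
    (hd : ∀ᶠ z in 𝓝 (0 : ℂ), ‖fderiv ℝ u z 1 - cm D x ((1 : ℕ) * z ^ (1 - 1)) a‖ ≤
      C * ‖z‖ ^ 1) : fderiv ℝ u 0 1 ≠ 0 := by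
  intro h
  have h1 := hd.self_of_nhds
  rw [h] at h1
  have h2 : cm D x (((1 : ℕ) : ℂ) * (0 : ℂ) ^ (1 - 1)) a = 0 := by
    have : ‖cm D x (((1 : ℕ) : ℂ) * (0 : ℂ) ^ (1 - 1)) a‖ ≤ 0 := by simpa using h1
    exact norm_le_zero_iff.1 this
  rw [show (((1 : ℕ) : ℂ) * (0 : ℂ) ^ (1 - 1)) = 1 by simp, cm_one] at h2
  exact frame_ne D x a b hab h2

end Vale.Agent.P247.H520.Wc
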